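import Vale.Agent.P269.Grr.TD
import Vale.Agent.P269.Grr.Alg
import Vale.Agent.P287Q.G.Map.Psi

/-!
# The tangent plane at the nodes
-/

set_option linter.unusedSectionVars false

namespace Vale.Agent.P269.Grr

open Set Function Topology Filter Module Vale.Agent.P291Z Vale.Agent.P269.Ch Vale.Agent.P269.Holo
  Vale.Agent.P269.Loc Vale.Agent.P269.Base PowerSeries

namespace ChNp

section alg

variable {R : Type*} [CommRing R]

theorem eq_of_reverse {r : ℕ} {P Q : Polynomial R} (hP : Mon r P) (hQ : Mon r Q)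
    (h : (P.reverse : R⟦X⟧) = (Q.reverse : R⟦X⟧)) : P = Q := by
  ext j
  rcases le_or_gt j r with e | e
  · have := congrArg (coeff (r - j)) h
    rwa [hP.coeff_reverse, hQ.coeff_reverse, if_pos (Nat.sub_le _ _), if_pos (Nat.sub_le _ _),
      Nat.sub_sub_self e] at this
  · rw [Polynomial.coeff_eq_zero_of_natDegree_lt (hP.le.trans_lt e),
      Polynomial.coeff_eq_zero_of_natDegree_lt (hQ.le.trans_lt e)]

theorem reverse_lin (a : R) :
    ((Polynomial.X + Polynomial.C a).reverse : R⟦X⟧) = 1 + C a * X := by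
  ext k
  rw [(mon_X_add_C a).coeff_reverse]
  rcases k with _ | _ | k
  · simp
  · simp [coeff_one]
  · simp [coeff_one]

end alg

open Psi

variable {ι : Type} [Fintype ι] [DecidableEq ι] {M : ι → ℕ} {o : ι} {C : Set (V M)}
  {c u v w : V M} {γ : Bool → ℂ → V M}

/-- a frame at a node -/
def fr₂ (c v w : V M) (j : Option (Option ι)) : V M := j.elim w (fr c v)

theorem sum_fr₂ (g : Option (Option ι) → ℂ) : ∑ j, g j • fr₂ c v w j =
    g (some none) • v + g none • w + (fun i => g (some (some i))) • c := by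
  rw [Fintype.sum_option, Fintype.sum_option, ← sum_single, add_left_comm, add_assoc]
  rfl

theorem mem_span : u ∈ Submodule.span ℂ (range (fr₂ c v w)) ↔
    ∃ (a b : ℂ) (s : ι → ℂ), u = a • v + b • w + s • c := by
  simp only [Submodule.mem_span_range_iff_exists_fun, sum_fr₂]
  exact ⟨fun ⟨g, e⟩ => ⟨_, _, _, e.symm⟩,
    fun ⟨a, b, s, e⟩ => ⟨fun j => j.elim b fun k => k.elim a s, e.symm⟩⟩

theorem coeff_zero (h : LinearIndependent ℂ ![c o, v o, w o]) {a b z : ℂ} {s : ι → ℂ}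
    (e : (a • v + b • w + s • c) o = z • c o) : a = 0 ∧ b = 0 :=
  of_li_triple h (s := z - s o) (by rw [sub_smul, ← e]; exact (add_sub_cancel_right _ _).symm)

theorem li_fr₂ (hc : ∀ i, c i ≠ 0) (h : LinearIndependent ℂ ![c o, v o, w o]) :
    LinearIndependent ℂ (fr₂ c v w) := by
  refine Fintype.linearIndependent_iff.2 fun g hg => ?_
  rw [sum_fr₂] at hg
  obtain ⟨h1, h2⟩ := coeff_zero h (z := 0) ((congrFun hg o).trans (zero_smul ℂ _).symm)
  rw [h1, h2, zero_smul, zero_smul, zero_add, zero_add] at hg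
  rintro (_ | _ | i)
  exacts [h2, h1, (smul_eq_zero.1 (congrFun hg i)).resolve_right (hc i)]

theorem deriv_mem {δ : ℂ → V M} (h : IsBranch o C δ) (e : δ 0 = c) : deriv δ 0 ∈ Tg C c :=
  Submodule.subset_span ⟨δ, h.holo, h.mem, e, rfl⟩

theorem span_le (h : Nod o C) (hc : c ∈ C) (hv : v ∈ Tg C c) (hw : w ∈ Tg C c) :
    Submodule.span ℂ (range (fr₂ c v w)) ≤ Tg C c := by
  refine Submodule.span_le.2 ?_
  rintro _ ⟨_ | _ | i, rfl⟩
  exacts [hw, hv, Nr_le h hc (Submodule.subset_span ⟨i, rfl⟩)]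

theorem Tg_loc (h : Nod o C) (hγ : Loc o C c γ) :
    Tg C c = Submodule.span ℂ (range (fr₂ c (deriv (γ true) 0) (deriv (γ false) 0))) := by
  refine le_antisymm (Submodule.span_le.2 ?_)
    (span_le h hγ.mem (deriv_mem (hγ.br _) (hγ.zero _)) (deriv_mem (hγ.br _) (hγ.zero _)))
  rintro _ ⟨δ, a, b, e, rfl⟩
  obtain ⟨j, s, ψ, -, -, -, -, -, d⟩ := hγ.lift a b e
  refine mem_span.2 ?_
  cases j
  · exact ⟨0, deriv ψ 0, deriv s 0, by rw [d, zero_smul, zero_add]⟩
  · exact ⟨deriv ψ 0, 0, deriv s 0, by rw [d, zero_smul, add_zero]⟩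

theorem mem_Tg_loc (h : Nod o C) (hγ : Loc o C c γ) : u ∈ Tg C c ↔
    ∃ (a b : ℂ) (s : ι → ℂ), u = a • deriv (γ true) 0 + b • deriv (γ false) 0 + s • c := by
  rw [Tg_loc h hγ, mem_span]

theorem finrank_node (h : Nod o C) (hc : c ∈ C) (hn : IsNode o C c) :
    finrank ℂ (Tg C c) = Fintype.card ι + 2 := by
  obtain ⟨γ, hγ⟩ := h.exists_loc hc
  rw [Tg_loc h hγ, finrank_span_eq_card (li_fr₂ hγ.ne (hγ.alt.resolve_left (hγ.isNode_iff.1 hn))),
    Fintype.card_option, Fintype.card_option]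

theorem Tg_eq_span (h : Nod o C) (hc : c ∈ C) (hn : IsNode o C c) (hv : v ∈ Tg C c)
    (hw : w ∈ Tg C c) (hl : LinearIndependent ℂ (fr₂ c v w)) :
    Tg C c = Submodule.span ℂ (range (fr₂ c v w)) :=
  (Submodule.eq_of_le_of_finrank_eq (span_le h hc hv hw) (by
    rw [finrank_node h hc hn, finrank_span_eq_card hl, Fintype.card_option,
      Fintype.card_option])).symm

theorem smul_mem (h : Nod o C) {s : ι → ℂ} (hs : ∀ i, s i ≠ 0) (hv : v ∈ Tg C c) :
    s • v ∈ Tg C (s • c) := by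
  obtain ⟨L, hL⟩ : ∃ L : V M →L[ℂ] V M, ∀ y, L y = s • y :=
    ⟨.pi fun i => s i • .proj i, fun _ => rfl⟩
  have := Tg_map (C' := C) L (fun y hy => (hL y).symm ▸ h.cone s hs y hy) hv
  rwa [hL, hL] at this

end ChNp

open ChNp

theorem chP_three {R : Type*} [CommRing R] [Algebra ℂ R] {P : Polynomial R} (hP : Mon 3 P) {a b : R}
    (h : (P.reverse : R⟦X⟧) = (1 + C a * X) * (1 + C b * X)) : chP 3 P = 1 + ex a + ex b := by
  have h1 := (mon_X_add_C (0 : R)).mul (mon_X_add_C a)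
  rw [eq_of_reverse hP (h1.mul (mon_X_add_C b)) (by
    rw [h, h1.reverse_mul (mon_X_add_C b), (mon_X_add_C 0).reverse_mul (mon_X_add_C a),
      reverse_lin, reverse_lin, reverse_lin, map_zero, zero_mul, add_zero, one_mul]),
    chP_mul h1 (mon_X_add_C b), chP_mul (mon_X_add_C 0) (mon_X_add_C a), chP_lin, chP_lin, chP_lin,
    ex_zero]

namespace CF

variable {ι : Type} [Fintype ι] [DecidableEq ι] {U : HO} {M : ι → ℕ} {o : ι} {g : ℤ} {m : ι → ℤ}
  {F : CF U M o g m}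

variable (F) in
theorem isClosed_Tg : IsClosed {z : F.UN × V M | z.2 ∈ Psi.Tg (F.C z.1.1.t) z.1.1.c} := by
  refine Psi.isClosed_span (κ := Option (Option ι))
    (B := fun x : F.UN => Psi.Tg (F.C (UT.t x.1)) (UT.c x.1)) fun x => ?_
  obtain ⟨τ, ⟨σ, h1, h2, h3, h4⟩, -⟩ := F.vers _ _ x.2
  obtain ⟨ζ, hζ⟩ := exists_lin_one (UT.ne x.1)
  have ct : Continuous fun y : F.UN => UT.t y.1 := UT.continuous_t.comp continuous_subtype_val
  have cc : Continuous fun y : F.UN => UT.c y.1 := UT.continuous_c.comp continuous_subtype_val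
  have cp : Continuous fun y : F.UN => ((U.ι (UT.t y.1), 0) : U.A × ℂ × ℂ) :=
    (U.cι.comp ct).prodMk continuous_const
  have c1 : ∀ i, ContinuousAt (fun y : F.UN => ζ i (σ (U.ι (UT.t y.1), 0) i)) x := fun i =>
    (ζ i).continuous.continuousAt.comp
      (continuousAt_pi.1 (h4.an.continuousAt.comp_of_eq cp.continuousAt rfl) i)
  have c2 : ∀ i, ζ i (σ (U.ι (UT.t x.1), 0) i) ≠ 0 := fun i => by
    rw [h1, hζ]
    exact one_ne_zero
  let s : F.UN → ι → ℂ := fun y i => ζ i (UT.c y.1 i) / ζ i (σ (U.ι (UT.t y.1), 0) i)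
  have cs : ContinuousAt s x := continuousAt_pi.2 fun i =>
    ((ζ i).continuous.comp ((continuous_apply i).comp cc)).continuousAt.div (c1 i) (c2 i)
  have s1 : s x = 1 := funext fun i => by
    simp only [s, h1]
    exact div_self (hζ i ▸ one_ne_zero)
  let D : ℂ × ℂ → F.UN → V M := fun e y => s y • fderiv ℂ σ (U.ι (UT.t y.1), 0) (0, e)
  have cD : ∀ e, ContinuousAt (D e) x := fun e => tendsto_smul cs
    ((h4.an.fderiv.continuousAt.comp_of_eq cp.continuousAt rfl).clm_apply continuousAt_const)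
  have ce : ContinuousAt (fun y : F.UN => fr₂ (UT.c y.1) (D (1, 0) y) (D (0, 1) y)) x := by
    refine continuousAt_pi.2 ?_
    rintro (_ | _ | i)
    exacts [cD _, cD _, Psi.continuousAt_single cc.continuousAt i]
  have li : LinearIndependent ℂ (fr₂ (UT.c x.1) (D (1, 0) x) (D (0, 1) x)) := by
    have := (h4.isCross h3 (h1 ▸ UT.ne x.1 o)).2.2.2.2
    rw [deriv_inl h4.an0, deriv_inr h4.an0, fderiv_inr h4.an, fderiv_inr h4.an, h1] at this
    simp only [D, s1, one_smul]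
    exact li_fr₂ (UT.ne x.1) this
  refine ⟨_, ce, li, ?_⟩
  have t1 : Tendsto (fun y : F.UN => (UT.t y.1, UT.c y.1)) (𝓝 x)
      (𝓝 (UT.t x.1, σ (U.ι (UT.t x.1), 0))) := h1 ▸ (ct.prodMk cc).continuousAt
  filter_upwards [ce.tendsto.eventually li.eventually,
    t1.eventually (NdAt.eventually h4 h2 h3 (F.fam _)),
    ct.continuousAt.eventually (h4.eventually_node h3 (F.fam _)),
    eventually_all.2 fun i => (c1 i).eventually_ne (c2 i)] with y a b c d
  obtain ⟨b1, ⟨s', b2⟩, -⟩ := (b (UT.mem y.1)).resolve_left fun h => h.not_isNode (F.fam _) y.2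
  have b3 : UT.c y.1 = s' • σ (U.ι (UT.t y.1), 0) := b2
  have e : s y = s' := funext fun i => by
    simp only [s, b3, Pi.smul_apply', map_smul, smul_eq_mul]
    exact mul_div_cancel_right₀ _ (d i)
  have hs : ∀ i, s' i ≠ 0 := ne_of_smul_ne (b3 ▸ UT.ne y.1)
  obtain ⟨k1, k2, k3, k4, -⟩ := c.isCross b1 fun h => d o (by rw [h, map_zero])
  have m1 := smul_mem (F.crv _).nod hs (deriv_mem k1 k3)
  have m2 := smul_mem (F.crv _).nod hs (deriv_mem k2 k4)
  rw [deriv_inl c.an0, fderiv_inr c.an, ← b3, ← e] at m1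
  rw [deriv_inr c.an0, fderiv_inr c.an, ← b3, ← e] at m2
  exact Tg_eq_span (F.crv _).nod (UT.mem y.1) y.2 m1 m2 a

theorem finrank_Tg {x : F.UT} (hx : x ∈ F.UN) :
    finrank ℂ (Psi.Tg (F.C x.t) x.c) = Fintype.card ι + 2 := finrank_node (F.crv _).nod x.mem hx

theorem act_mem_Tg (s : U.G × Tor ι) {x : F.UT} {v : V M} (h : v ∈ Psi.Tg (F.C x.t) x.c) :
    F.act s v ∈ Psi.Tg (F.C (s • x).t) (s • x).c :=
  Psi.Tg_map (LinearMap.toContinuousLinearMap (F.act s)) (fun _ hc => F.act_mem s hc) h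

variable (F) in
/-- the tangent spaces of the multicone at the nodes -/
noncomputable def Tn : VB F.UNH.toSp :=
  (F.VM.pb F.iN).sub (fun x : F.UN => Psi.Tg (F.C (UT.t x.1)) (UT.c x.1)) (Fintype.card ι + 2)
    F.isClosed_Tg (fun x => finrank_Tg x.2) fun s _ _ h => act_mem_Tg s h

theorem Kn_smul (s : U.G × Tor ι) (w : F.Kn.W) :
    (show F.UNH.toSp.G from s) • w = (s.2 o : ℂ) • F.ρ s.1 o w :=
  congrArg (fun u : ℂˣ => (u : ℂ) • F.ρ s.1 o w) (F.ch_single s)

variable (F) in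
theorem hom_Tn : Ch.Hom (Mor.id _) F.Tn F.Kn fun _ => (LinearMap.proj o : V M →ₗ[ℂ] _) := by
  refine Hom.of_continuous (fun x w hw => ?_) ((continuous_apply o).comp continuous_snd)
    fun s x w _ => (Kn_smul s _).symm
  obtain ⟨γ, hγ⟩ := (F.crv _).nod.exists_loc (UT.mem x.1)
  obtain ⟨a, b, s, rfl⟩ := (mem_Tg_loc (F.crv _).nod hγ).1 hw
  exact (F.mem_tC hγ).2 ⟨s o, a, b, (add_comm _ _).trans (add_assoc _ _ _).symm⟩

variable (F) in
theorem hom_one : Ch.Hom (Mor.id _) (char 1) F.Kn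
    fun x : F.UN => LinearMap.toSpanSingleton ℂ (Fin (M o) → ℂ) (UT.c x.1 o) := by
  have cc : Continuous fun y : F.UN => UT.c y.1 := UT.continuous_c.comp continuous_subtype_val
  have hc : Continuous fun z : F.UN × ℂ => z.2 • UT.c z.1.1 o :=
    continuous_snd.smul ((continuous_apply o).comp (cc.comp continuous_fst))
  refine Hom.of_continuous (fun x w _ => ?_) hc fun s x w _ => ?_
  · obtain ⟨γ, hγ⟩ := (F.crv _).nod.exists_loc (UT.mem x.1)
    exact (F.mem_tC hγ).2 ⟨w, 0, 0, by rw [zero_smul, zero_smul, add_zero, add_zero]; rfl⟩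
  · refine Eq.trans ?_ (Kn_smul s _).symm
    change ((1 : ℂ) * (show ℂ from w)) • ((s.2 o : ℂ) • F.ρ s.1 o (UT.c x.1 o)) =
      (s.2 o : ℂ) • F.ρ s.1 o ((show ℂ from w) • UT.c x.1 o)
    rw [one_mul, map_smul, smul_comm]

variable {A W : Type} [NormedRing A] [NormedAlgebra ℂ A] [NormedAddCommGroup W] [NormedSpace ℂ W]
  {act : A → W → W} {S : Set W} {ρ : A → V M → V M} {B N : W → Submodule ℂ (V M)}

-- the tangent plane at the nodes
theorem ch_Kn (q : Pres F.UNH.toSp act S) (hρ : ∀ (s : U.G × Tor ι) v, ρ (q.u s) v = F.act s v)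
    (hB : ∀ x : F.UN, B (q.i x) = Psi.Tg (F.C x.1.t) x.1.c)
    (hN : ∀ x : F.UN, N (q.i x) = Psi.Nr x.1.c) :
    chernT act ρ S B N = pS q.e F.Kn.chR := by
  obtain ⟨Q, K, -, hE⟩ := F.hom_one.exists_coker fun x w _ h =>
    (smul_eq_zero.1 h).resolve_right (UT.ne x.1 o)
  have hm : IsMod q ρ B N F.Tn Q (LinearMap.id : V M →ₗ[ℂ] V M)
      fun x => K x ∘ₗ (LinearMap.proj o : V M →ₗ[ℂ] _) := by
    refine ⟨IsEmbedding.id, fun x => (Submodule.map_id _).trans (hB x).symm, fun s x w _ => ?_,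
      fun x => ?_, hE.hB.comp F.hom_Tn, fun x w hw => ?_, fun x w hw => ?_⟩
    · exact (sub_eq_zero.2 (hρ s w).symm : F.act s w - ρ (q.u s) w = 0) ▸ zero_mem _
    · exact (hN x).trans_le ((Psi.Nr_le (F.crv _).nod (UT.mem x.1)).trans_eq (hB x).symm)
    · obtain ⟨v, hv, rfl⟩ := hE.surj x w hw
      obtain ⟨γ, hγ⟩ := (F.crv _).nod.exists_loc (UT.mem x.1)
      obtain ⟨a, b, b', rfl⟩ := (F.mem_tC hγ).1 hv
      exact ⟨_, (mem_Tg_loc (F.crv _).nod hγ).2 ⟨b, b', fun _ => a, rfl⟩,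
        congrArg (K x) ((add_comm _ _).trans (add_assoc _ _ _).symm)⟩
    · refine (hE.ex x _ (F.hom_Tn.mem x w hw)).trans ⟨fun ⟨z, _, e⟩ => (hN x).ge ?_, fun h => ?_⟩
      · obtain ⟨γ, hγ⟩ := (F.crv _).nod.exists_loc (UT.mem x.1)
        obtain ⟨a, b, s, rfl⟩ := (mem_Tg_loc (F.crv _).nod hγ).1 hw
        obtain ⟨rfl, rfl⟩ := coeff_zero (hγ.alt.resolve_left (hγ.isNode_iff.1 x.2)) e.symm
        exact Psi.mem_Nr.2 ⟨s, by rw [zero_smul, zero_smul, zero_add, zero_add]; rfl⟩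
      · obtain ⟨s, e⟩ := Psi.mem_Nr.1 ((hN x).le h)
        exact ⟨s o, trivial, (congrFun e o).symm⟩
  have h1 : (char (1 : F.UNH.toSp.G →ₜ* ℂˣ)).chR = 1 := by
    rw [VB.chR, chern_char, reverse_lin, c1_one, map_zero, zero_mul, add_zero]
  refine (IsMod.ch_eq (D := ⟨ρ, B, N⟩) hm).trans ?_
  rw [hE.chR, h1, one_mul, ← (Q.chern_mon.map _).reverse_eq, Q.chern_mon.reverse_map]
  rfl

theorem IsTd.mum' {Λ j gN Φ} (h : F.IsTd Λ j gN Φ) {T : Type} [TopologicalSpace T]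
    (κ : C(T, F.UNH.X)) {a b : Hev T}
    (e : pS κ F.Kn.chR = (1 + PowerSeries.C a * X) * (1 + PowerSeries.C b * X)) :
    pS κ Φ = mumS a b :=
  h.mum T κ a b ((chP_map (Hev.map κ) 3 F.Kn.chern).symm.trans
    (chP_three (F.Kn.chern_mon.map _) ((F.Kn.chern_mon.reverse_map _).trans e)))

end CF

end Vale.Agent.P269.Grr
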