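import Vale.Agent.P287Q.G.Grr.ChC

/-!
# The logarithmic canonical class vanishes along the marked points
-/

set_option linter.unusedSectionVars false

namespace Vale.Agent.P269.Grr

open Set Function Topology Filter Module Vale.Agent.P291Z Vale.Agent.P269.Ch Vale.Agent.P269.Holo
  Vale.Agent.P269.Loc Vale.Agent.P269.Base PowerSeries

variable {S Λ R J ι ν κ : Type} [Fintype S] [Fintype Λ] [Fintype R] [Fintype J] [Fintype ι]
  [DecidableEq ι] [Fintype ν] [Fintype κ] {ch : Ch ι J} {W : Wt S Λ R J} {B : Set (Λ → ℂ)}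
  {O : Set (ch.WF ν κ Λ)} {d : ℕ}

namespace IsCh

variable {U : HO} {F : CF U ch.M ch.o ch.g ch.m} {p : Pres U.toSp (actF W) O}
  {τ : U.G →* (ch.AF ν κ S)ˣ} (h : IsCh F p τ)
include h

theorem cap_sec (n : Mk ν κ) : cap (Hev.map (h.sec n).m.map (c1 (F.ch ch.χ))).1 U.fund = 0 := by
  obtain ⟨T, i, gN, Φ, hT, -⟩ := F.grr
  choose L σ hL using fun n => (h.sec n).exists_dv
  have e := (hL n).cap (ch.k • T.eu + c1 (F.ch ch.χ) - ch.k • ∑ n, (L n).eu)
  rw [map_sub, map_add, map_nsmul, map_nsmul, map_sum, Finset.sum_eq_single n (fun n' _ k =>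
    (hL n').map_eu fun t e => k (h.sec_inj _ _ t e)) (fun k => absurd (Finset.mem_univ n) k),
    (hL n).eu T i hT.om, add_sub_cancel_left, mul_comm] at e
  exact (CF.FinA.push_sec _ _).symm.trans ((congrArg _ (e.symm.trans ((cap_mul _ _ _).trans
    ((congrArg _ (h.log hT.om hL)).trans (map_zero _))))).trans (map_zero _))

theorem cap_secC (n : Mk ν κ) {β} (hβ : push p.e β = U.fund) :
    cap (H.map ⟨secC W h.base n, continuous_secC _ n⟩ (oC W O ch.χ)) β = 0 := by
  obtain ⟨pC, q⟩ := h.exists_pC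
  have := p.nice
  refine push_injective p.isHomeomorph_e ?_
  rw [q.oC_eq, H.map_map, show pC.e.comp ⟨secC W h.base n, continuous_secC _ n⟩ =
    (h.sec n).m.map.comp p.e from ContinuousMap.ext (h.secC_eq q n), ← H.map_map,
    push_cap (isPr_homeo p.isHomeomorph_e), hβ, map_zero]
  exact h.cap_sec n

end IsCh

variable [IsAct (actF W) O] (ho : Orb.Orb (ch.AF ν κ S)ˣ (Holo.Sp (actF W) O))
  (hm : KD.Mf (ch.AF ν κ S) O d) (h : Num₀ ch) (hV : Ver B O)

include ho hm h in
theorem cap_secC_oC (n : Mk ν κ) :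
    cap (H.map ⟨secC W hV.base n, continuous_secC _ n⟩ (oC W O ch.χ)) (fnd (actF W) O d) = 0 := by
  by_cases h3 : 3 ≤ ch.M ch.o
  · exact (isCh_cfF ho hm h hV h3).cap_secC n (holP_hoF ho hm).push_fnd
  have : IsEmpty (Quo (actF W) O) := ⟨Quot.ind fun x =>
    (h.empty (hV.base _ x.2) (crv_empty h hV h3 x.2)).2.2.2.2.1.false n⟩
  exact NL.bm_eq _ _

end Vale.Agent.P269.Grr
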