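import Vale.Agent.P287Q.G.Grr.ChD
import Vale.Agent.P269.Grr.Sec
import Vale.Agent.P287Q.G.Map.Hol

/-!
# The tensor `Ξ` on the smooth part of the universal curve over a chart
-/

set_option linter.unusedSectionVars false

namespace Vale.Agent.P269.Grr

open Set Function Topology Filter Module Vale.Agent.P291Z Vale.Agent.P269.Ch Vale.Agent.P269.Holo
  Vale.Agent.P269.Loc Vale.Agent.P269.Base PowerSeries

variable {S Λ R J ι ν κ : Type} [Fintype S] [Fintype Λ] [Fintype R] [Fintype J] [Fintype ι]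
  [DecidableEq ι] [Fintype ν] [Fintype κ] {ch : Ch ι J} {W : Wt S Λ R J}
  {O : Set (ch.WF ν κ Λ)} {U : HO}

namespace ChA

theorem exists_at {x : ch.W ν} (hx : x ∈ ch.base ν) {γ : ℂ → V ch.M}
    (hγ : IsBranch ch.o (crv x) γ) : ∃ ρ, LeadAt x (γ 0) (deriv γ 0) ρ :=
  let ⟨_, _, _, _, _, h⟩ := hx.2.2.2.2.2.1 γ hγ
  ⟨_, fun u hu μ => h.self_of_nhds u hu μ⟩

theorem leadAt_smul {x : ch.W ν} (hx : ∀ l, Surjective (x.Q l)) {c v : V ch.M} {ρ : ℂ}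
    (h : LeadAt x c v ρ) {s : ι → ℂ} (hs : ∀ i, s i ≠ 0) :
    LeadAt x (s • c) (s • v) ((∏ i, s i ^ ch.χ i) * ρ) := fun w hw μ => by
  have h1 := crv_smul (mem_crv.2 ⟨w, hw⟩) (s := s⁻¹) fun i => inv_ne_zero (hs i)
  rw [inv_smul_smul' hs] at h1
  obtain ⟨u, hu⟩ := mem_crv.1 h1
  rw [gr_unique hw (gr_smul hu hs) (hx _), _root_.smul_apply, h u hu,
    wedge_smul μ s c v (s • v) (a := 0) (b := s ch.o) (by simp), Cv.chr_χ _ hs, smul_eq_mul]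
  ring

theorem deriv_shift {P E : Type} [NormedAddCommGroup P] [NormedSpace ℂ P] [NormedAddCommGroup E]
    [NormedSpace ℂ E] {σ : P × ℂ → E} {a : P} {z w : ℂ} (h : AnalyticAt ℂ σ (a, z + w)) :
    HasDerivAt (fun y => σ (a, z + y)) (fderiv ℂ σ (a, z + w) (0, 1)) w :=
  h.differentiableAt.hasFDerivAt.comp_hasDerivAt_of_eq w
    ((hasDerivAt_const w a).prodMk ((hasDerivAt_id' w).const_add z)) rfl

/-- the tensor along a family of discs centred at special points -/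
theorem lead_disc {T P : Type} [TopologicalSpace T] [NormedAddCommGroup P] [NormedSpace ℂ P]
    [FiniteDimensional ℂ P] {π : T → P} {t₀ : T} {X : T → ch.W ν} {Y : P → ch.W ν}
    (hX : ∀ t, X t ∈ ch.base ν) (hY : AnalyticAt ℂ Y (π t₀)) (e : ∀ᶠ t in 𝓝 t₀, X t = Y (π t))
    (hf : LocFam ch.o (fun t => crv (X t)) π t₀) {σ : P × ℂ → V ch.M}
    (hσ : Chart ch.o (fun t => crv (X t)) π t₀ σ fun _ => univ)
    (hs : ∀ᶠ t in 𝓝 t₀, Spc (X t) (σ (π t, 0))) :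
    ∃ G : ℂ × P → ℂ, AnalyticAt ℂ G (0, π t₀) ∧ G (0, π t₀) ≠ 0 ∧ ∀ᶠ q : T × ℂ in 𝓝 (t₀, 0),
      LeadAt (X q.1) (σ (π q.1, q.2)) (fderiv ℂ σ (π q.1, q.2) (0, 1))
        (G (q.2, π q.1) * q.2 ^ ch.k) := by
  have hπ := hf.cont.self_of_nhds
  have b1 := hσ.isBranch hf
  have b2 : ∀ᶠ q : T × ℂ in 𝓝 (t₀, 0), AnalyticAt ℂ σ (π q.1, q.2) :=
    (tendsto_pm hπ 0).eventually hσ.an.eventually_analyticAt
  have b3 : ∀ᶠ q : T × ℂ in 𝓝 (t₀, 0), ∃ γ, IsBranch ch.o (crv (X q.1)) γ ∧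
      γ 0 = σ (π q.1, q.2) ∧ deriv γ 0 = fderiv ℂ σ (π q.1, q.2) (0, 1) := by
    filter_upwards [b1, b2] with q c1 c2
    refine ⟨_, c1, by simp, ?_⟩
    simpa using (deriv_shift (σ := σ) (a := π q.1) (z := q.2) (w := 0) (by simpa using c2)).deriv
  obtain ⟨γ, g1, g2, g3⟩ := b3.self_of_nhds
  obtain ⟨Ψ, p1, p2⟩ := exists_leadU (hX t₀).1 (crv_ne (hσ.mem0.self_of_nhds trivial))
    (v := fderiv ℂ σ (π t₀, 0) (0, 1)) (by
      have := g1.imm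
      rwa [g2, g3] at this)
  have a0 : AnalyticAt ℂ (fun q : ℂ × P => (q.2, q.1)) (0, π t₀) :=
    analyticAt_snd.prod analyticAt_fst
  have a1 : AnalyticAt ℂ (fun q : ℂ × P => (Y q.2, σ (q.2, q.1), fderiv ℂ σ (q.2, q.1) (0, 1)))
      (0, π t₀) := (hY.comp_of_eq analyticAt_snd rfl).prod ((hσ.an.comp_of_eq a0 rfl).prod
        (an_apply (hσ.an.fderiv.comp_of_eq a0 rfl) analyticAt_const))
  rw [e.self_of_nhds] at p1 p2
  have t1 : Tendsto (fun q : T × ℂ => (q.2, π q.1)) (𝓝 (t₀, 0)) (𝓝 (0, π t₀)) :=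
    Tendsto.prodMk_nhds continuousAt_snd (hπ.comp continuousAt_fst)
  have E : ∀ᶠ q : T × ℂ in 𝓝 (t₀, 0), ∀ ρ, LeadAt (X q.1) (σ (π q.1, q.2))
      (fderiv ℂ σ (π q.1, q.2) (0, 1)) ρ →
      ρ = Ψ (Y (π q.1), σ (π q.1, q.2), fderiv ℂ σ (π q.1, q.2) (0, 1)) := by
    filter_upwards [(a1.continuousAt.tendsto.comp t1).eventually p2, hσ.mem,
      continuousAt_fst.eventually e] with q c1 c2 c3
    rw [c3] at c2 ⊢
    exact c1 (c2 trivial)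
  obtain ⟨G, g4, g5⟩ := MarkP.div_pow_par (p1.comp_of_eq a1 rfl) ch.k
  have A : ∀ᶠ t in 𝓝 t₀, ∃ f, AnalyticAt ℂ f 0 ∧ f 0 ≠ 0 ∧ ∀ᶠ z in 𝓝 (0 : ℂ),
      Ψ (Y (π t), σ (π t, z), fderiv ℂ σ (π t, z) (0, 1)) = z ^ ch.k * f z := by
    filter_upwards [E.curry_nhds, (tendsto_inl t₀ (0 : ℂ)).eventually b1, b2.curry_nhds, hs]
      with t c1 c2 c3 c4
    obtain ⟨ρ, c5, f, c6, c7, c8⟩ := (hX t).2.2.2.2.2.1 _ c2
    refine ⟨f, c6, c7 ▸ c5, ?_⟩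
    filter_upwards [c1, c3, c8] with z d1 d2 d3
    refine (d1 _ fun u hu μ => ?_).symm
    have d4 := d3 u (by simpa using hu) μ
    rw [if_pos (by simpa [Spc] using c4), (deriv_shift (by simpa using d2)).deriv, zero_add] at d4
    rw [d4, mul_comm (f z)]
  have B : ∀ᶠ t in 𝓝 t₀, ∀ z, Ψ (Y (π t), σ (π t, z), fderiv ℂ σ (π t, z) (0, 1)) =
      z ^ ch.k * G (z, π t) := by
    filter_upwards [A, hπ.eventually g5] with t ⟨f, c1, _, c2⟩ c3 using c3 ⟨f, c1, c2⟩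
  refine ⟨G, g4, ?_, ?_⟩
  · obtain ⟨f, c1, c2, c3⟩ := A.self_of_nhds
    have c4 : ContinuousAt (fun z : ℂ => G (z, π t₀)) 0 :=
      g4.continuousAt.comp_of_eq (continuousAt_id.prodMk continuousAt_const) rfl
    refine (tendsto_nhds_unique_of_eventuallyEq (l := 𝓝[≠] (0 : ℂ))
      (c4.tendsto.mono_left nhdsWithin_le_nhds) (c1.continuousAt.tendsto.mono_left
        nhdsWithin_le_nhds) ?_).trans_ne c2
    filter_upwards [self_mem_nhdsWithin, nhdsWithin_le_nhds c3] with z d1 d2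
    exact mul_left_cancel₀ (pow_ne_zero _ d1) ((B.self_of_nhds z).symm.trans d2)
  · filter_upwards [E, b3, continuousAt_fst.eventually B] with q c1 ⟨δ, c2, c3, c4⟩ c5
    obtain ⟨ρ, c6⟩ := exists_at (hX _) c2
    rw [c3, c4] at c6
    rwa [mul_comm, ← c5, ← c1 ρ c6]

end ChA

namespace IsCh

variable {F : CF U ch.M ch.o ch.g ch.m} {p : Pres U.toSp (actF W) O} {τ : U.G →* (ch.AF ν κ S)ˣ}
  (h : IsCh F p τ)
include h

-- the tensor `Ξ` near an ordinary smooth point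
theorem lead_off {x : F.UT} (hx : x ∉ F.UN) (hD : ∀ n, x ∉ (h.sec n).D) :
    ∃ (v : F.UT → V ch.M) (u : F.UT → ℂ), CF.Tv x v ∧ u x ≠ 0 ∧
      ∀ᶠ y in 𝓝 x, ContinuousAt u y ∧ LeadAt (p.i y.t).2 y.c (v y) (u y) := by
  obtain ⟨v, v1, v2⟩ := ((F.fam x.t).smAt x.mem hx).exists_tangent (F.fam x.t)
  obtain ⟨Y, y1, y2⟩ := h.hol x.t
  have c0 := F.isEmbedding_ιU.continuous
  have v3 : ∀ᶠ y in 𝓝 x, ∃ γ, IsBranch ch.o (F.C y.t) γ ∧ γ 0 = y.c ∧ deriv γ 0 = v (F.ιU y) :=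
    (CF.UT.isEmbedding.continuous.continuousAt.eventually v2).mono fun y hy => hy y.mem
  obtain ⟨γ, g1, g2, g3⟩ := v3.self_of_nhds
  obtain ⟨Ψ, p1, p2⟩ := exists_leadU (h.mem_base x.t).1 x.ne (v := v (F.ιU x)) (by
    have := g1.imm
    rwa [g2, g3] at this)
  have a1 : AnalyticAt ℂ (fun a : U.A × V ch.M => ((Y a.1).2, a.2, v a)) (F.ιU x) :=
    (analyticAt_snd.comp (y1.comp_of_eq analyticAt_fst rfl)).prod (analyticAt_snd.prod v1)
  rw [y2.self_of_nhds] at p1 p2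
  have a2 : AnalyticAt ℂ (fun a : U.A × V ch.M => Ψ ((Y a.1).2, a.2, v a)) (F.ιU x) :=
    p1.comp_of_eq a1 rfl
  have E : ∀ᶠ y in 𝓝 x, ∀ ρ, LeadAt (p.i y.t).2 y.c (v (F.ιU y)) ρ →
      ρ = Ψ ((Y (U.ι y.t)).2, y.c, v (F.ιU y)) := by
    filter_upwards [(a1.continuousAt.tendsto.comp c0.continuousAt).eventually p2,
      CF.UT.continuous_t.continuousAt.eventually y2] with y c1 c2
    have c3 := y.mem
    rw [h.C, c2] at c3
    rw [c2]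
    exact c1 c3
  refine ⟨fun y => v (F.ιU y), fun y => Ψ ((Y (U.ι y.t)).2, y.c, v (F.ιU y)), ?_, ?_, ?_⟩
  · filter_upwards [v3, c0.continuousAt.eventually v1.eventually_analyticAt] with y c1 c2
    exact ⟨c2.continuousAt.comp c0.continuousAt, c1⟩
  · rw [h.C] at g1
    obtain ⟨ρ, c1, c2⟩ := exists_leadAt (h.mem_base x.t) g1 (by
      rw [g2]
      rintro (e | ⟨n, s, e⟩)
      · exact hx (F.mem_UN.2 (h.C x.t ▸ e))
      · exact hD n ((h.sec n).mem_D.2 (.of_smul x.ne e)))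
    rw [g2, g3] at c2
    exact fun e => c1 ((E.self_of_nhds ρ c2).trans e)
  · filter_upwards [E, v3, c0.continuousAt.eventually a2.eventually_analyticAt]
      with y c1 ⟨δ, c2, c3, c4⟩ c5
    rw [h.C] at c2
    obtain ⟨ρ, c6⟩ := ChA.exists_at (h.mem_base _) c2
    rw [c3, c4] at c6
    exact ⟨c5.continuousAt.comp c0.continuousAt, c1 ρ c6 ▸ c6⟩

-- the tensor `Ξ` near a marked point
theorem lead_on {n : Mk ν κ} {x : F.UT} (hx : x ∈ (h.sec n).D) :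
    ∃ (v : F.UT → V ch.M) (u : F.UT → ℂ) (Φ : U.A × V ch.M → ℂ), CF.Tv x v ∧ u x ≠ 0 ∧
      AnalyticAt ℂ Φ (F.ιU x) ∧ (∀ᶠ y in 𝓝 x, y ∈ (h.sec n).D → Φ (F.ιU y) = 0) ∧
      (∃ w ∈ tan F.ιU x, fderiv ℂ Φ (F.ιU x) w ≠ 0) ∧
      ∀ᶠ y in 𝓝 x, ContinuousAt u y ∧
        LeadAt (p.i y.t).2 y.c (v y) (u y * Φ (F.ιU y) ^ ch.k) := by
  obtain ⟨σ, Φ, h1, h2, h3, h4, h5, h6, h7⟩ := (h.sec n).exists_chart hx
  obtain ⟨Y, y1, y2⟩ := h.hol x.t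
  have hC : F.C = fun t => crv (p.i t).2 := funext h.C
  obtain ⟨G, g1, g2, g3⟩ := ChA.lead_disc (X := fun t => (p.i t).2) (Y := fun a => (Y a).2)
    h.mem_base (analyticAt_snd.comp y1) (y2.mono fun t e => congrArg Prod.snd e)
    (hC ▸ F.fam x.t) (hC ▸ h2) (h3.mono fun t ⟨s, _, e⟩ => .inr ⟨n, s, e⟩)
  obtain ⟨ρ, r1, r2, -, r4⟩ := h2.exists_mem_iff U.cι.continuousAt (h1 ▸ x.ne) (F.fam _).cone
  rw [h1] at r1 r2 r4
  have c0 := F.isEmbedding_ιU.continuous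
  have o2 : ∀ᶠ y in 𝓝 x, y.c = (ρ (F.ιU y)).1 • σ (U.ι y.t, (ρ (F.ιU y)).2) :=
    (CF.UT.isEmbedding.continuous.continuousAt.eventually r4).mono fun y hy => (hy.1 y.mem).2
  have r5 : Tendsto (fun y => ρ (F.ιU y)) (𝓝 x) (𝓝 (1, 0)) :=
    (r2 ▸ r1.continuousAt.tendsto :).comp c0.continuousAt
  have r6 : Tendsto (fun y : F.UT => (y.t, (ρ (F.ιU y)).2)) (𝓝 x) (𝓝 (x.t, 0)) :=
    CF.UT.continuous_t.continuousAt.tendsto.prodMk_nhds r5.snd_nhds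
  have r7 : Tendsto (fun y : F.UT => (U.ι y.t, ρ (F.ιU y))) (𝓝 x) (𝓝 (U.ι x.t, 1, 0)) :=
    ((U.cι.comp CF.UT.continuous_t).tendsto x).prodMk_nhds r5
  have a1 : AnalyticAt ℂ (fun a : U.A × V ch.M => (ρ a).1) (F.ιU x) := analyticAt_fst.comp r1
  have a2 : AnalyticAt ℂ (fun a : U.A × V ch.M => (ρ a).2) (F.ιU x) := analyticAt_snd.comp r1
  have e1 : (ρ (F.ιU x)).1 = 1 := congrArg Prod.fst r2
  have e2 : (ρ (F.ιU x)).2 = 0 := congrArg Prod.snd r2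
  have a3 : AnalyticAt ℂ (fun a : U.A × V ch.M => (ρ a).1 • fderiv ℂ σ (a.1, (ρ a).2) (0, 1))
      (F.ιU x) := an_smul a1 (an_apply (h2.an.fderiv.comp_of_eq (analyticAt_fst.prod a2)
        (Prod.ext rfl e2)) analyticAt_const)
  have a4 : AnalyticAt ℂ (fun a : U.A × V ch.M =>
      (∏ i, (ρ a).1 i ^ ch.χ i) * G ((ρ a).2, a.1)) (F.ιU x) :=
    (Finset.analyticAt_fun_prod _ fun i _ => (analyticAt_pi_iff.1 a1 i).fun_zpow
      (by rw [e1]; exact one_ne_zero)).mul (g1.comp_of_eq (a2.prod analyticAt_fst)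
        (Prod.ext e2 rfl))
  refine ⟨fun y => (ρ (F.ιU y)).1 • fderiv ℂ σ (U.ι y.t, (ρ (F.ιU y)).2) (0, 1),
    fun y => (∏ i, (ρ (F.ιU y)).1 i ^ ch.χ i) * G ((ρ (F.ιU y)).2, U.ι y.t), Φ, ?_, ?_, h4,
    h6.mono fun y hy => hy.1, h7, ?_⟩
  · filter_upwards [o2, c0.continuousAt.eventually a3.eventually_analyticAt,
      r6.eventually (h2.isBranch (F.fam _)), r5.eventually ev_ne_one, r6.eventually
        ((tendsto_pm U.cι.continuousAt 0).eventually h2.an.eventually_analyticAt)]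
      with y c1 c2 c3 c4 c5
    refine ⟨c2.continuousAt.comp c0.continuousAt, _, c3.smul (F.crv _).nod c4,
      by simpa using c1.symm, HasDerivAt.deriv ?_⟩
    simpa using hasDerivAt_smul (hasDerivAt_const (0 : ℂ) (ρ (F.ιU y)).1)
      (ChA.deriv_shift (σ := σ) (a := U.ι y.t) (z := (ρ (F.ιU y)).2) (w := 0) (by simpa using c5))
  · simpa [e1, e2] using g2
  · filter_upwards [o2, c0.continuousAt.eventually a4.eventually_analyticAt, r6.eventually g3,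
      r5.eventually ev_ne_one, r7.eventually h5] with y c1 c2 c3 c4 c5
    refine ⟨c2.continuousAt.comp c0.continuousAt, ?_⟩
    have c6 : Φ (F.ιU y) = (ρ (F.ιU y)).2 := (congrArg (fun c => Φ (U.ι y.t, c)) c1).trans c5
    have c7 := ChA.leadAt_smul (h.mem_base y.t).1 c3 c4
    rw [← c1, ← mul_assoc] at c7
    rwa [c6]

end IsCh

end Vale.Agent.P269.Grr
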