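import Vale.Agent.P269.Grr.SD
import Vale.Agent.P269.Map.SQD
import Vale.Agent.P287Q.G.Map.Defs
import Vale.Agent.P269.Pt.Fld

/-!
# The family of curves over a chart: definitions
-/

set_option linter.unusedSectionVars false

namespace Vale.Agent.P269.Grr

open Set Function Topology Filter Module Vale.Agent.P291Z Vale.Agent.P269.Ch Vale.Agent.P269.Holo
  Vale.Agent.P269.Loc Vale.Agent.P269.Base PowerSeries

variable {S Λ R J ι ν κ : Type} [Fintype S] [Fintype Λ] [Fintype R] [Fintype J] [Fintype ι]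
  [DecidableEq ι] [Fintype ν] [Fintype κ] {ch : Ch ι J} {W : Wt S Λ R J}
  {O : Set (ch.WF ν κ Λ)} {U : HO}

/-- `F` is the family of curves over the invariant subset `O` of a chart. -/
structure IsCh (F : CF U ch.M ch.o ch.g ch.m) (p : Pres U.toSp (actF W) O)
    (τ : U.G →* (ch.AF ν κ S)ˣ) : Prop where
  cont : Continuous τ
  u : ∀ g, p.u g = τ g
  hol : ∀ t, HolAt U.ι p.i t
  base : ∀ x ∈ O, x.2 ∈ ch.base _
  cuts : ch.Cuts
  C : ∀ t, F.C t = crv (p.i t).2
  ρ : ∀ g i, F.ρ g i = (τ g : ch.AF ν κ S).2.1 i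

/-- the scalar by which a marked point is rescaled -/
def mkM (n : Mk ν κ) (i : ι) : ch.AF ν κ S →* ℂ where
  toFun s := (dup s.2).2.2 n i
  map_one' := rfl
  map_mul' _ _ := rfl

/-- the coordinates of the extra torus -/
def exM (i : S) : ch.AF ν κ S →* ℂ where
  toFun s := s.1 i
  map_one' := rfl
  map_mul' _ _ := rfl

/-- `v` is a continuous field of tangent vectors to the fibres near `x` -/
def CF.Tv {M : ι → ℕ} {o : ι} {g : ℤ} {m : ι → ℤ} {F : CF U M o g m} (x : F.UT)
    (v : F.UT → V M) : Prop :=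
  ∀ᶠ y in 𝓝 x, ContinuousAt v y ∧ ∃ γ, IsBranch o (F.C y.t) γ ∧ γ 0 = y.c ∧ deriv γ 0 = v y

namespace IsCh

variable {F : CF U ch.M ch.o ch.g ch.m} {p : Pres U.toSp (actF W) O} {τ : U.G →* (ch.AF ν κ S)ˣ}
  (h : IsCh F p τ)
include h

theorem mem_base (t : U.T) : (p.i t).2 ∈ ch.base _ := h.base _ (p.mem t)

theorem eqv (g : U.G) (t : U.T) : p.i (g • t) = actF W (τ g) (p.i t) := by rw [p.eqv, h.u]

theorem p_mem (t : U.T) (n : Mk ν κ) : (p.i t).2.p n ∈ F.C t :=
  h.C t ▸ ((h.mem_base t).2.2.2.1 n).1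

/-- the section given by a marked point -/
noncomputable def sec (n : Mk ν κ) : F.Sec where
  m := ⟨(MonoidHom.id U.G).prod (MonoidHom.pi fun i => (Units.map (mkM n i)).comp τ),
    fun t => CF.UT.mk t ((p.i t).2.p n) (h.p_mem t n),
    continuous_id.prodMk (continuous_pi fun i => (Units.continuous_map (show Continuous
      fun s : ch.AF ν κ S => s.2.2.2 (n.map id Prod.fst) i by fun_prop)).comp h.cont),
    CF.UT.continuous_mk continuous_id
      ((Ch.W.pL (ch := ch) n).continuous.comp (continuous_snd.comp p.emb.continuous)) _,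
    fun g t => CF.UT.ext rfl (funext fun i => by
      show (p.i (g • t)).2.p n i = mkM n i (τ g : ch.AF ν κ S) • F.ρ g i ((p.i t).2.p n i)
      rw [h.eqv, h.ρ]
      rfl)⟩
  ρ _ := rfl
  t _ := rfl
  hol t := by
    obtain ⟨Φ, h1, h2⟩ := h.hol t
    exact ⟨Ch.W.pL (ch := ch) n ∘ Prod.snd ∘ Φ,
      ((Ch.W.pL (ch := ch) n).analyticAt _).comp (analyticAt_snd.comp h1),
      h2.mono fun s e => congrArg (fun x : ch.WF ν κ Λ => x.2.p n) e⟩
  sm t := fun e => ((h.mem_base t).2.2.2.1 n).2 (h.C t ▸ e)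

theorem sec_p (n : Mk ν κ) (t : U.T) : (h.sec n).p t = (p.i t).2.p n := rfl

theorem sec_inj (n n' : Mk ν κ) (t : U.T) (e : Base.Orb ((h.sec n).p t) ((h.sec n').p t)) :
    n = n' :=
  let ⟨s, _, e⟩ := e
  ((h.mem_base t).2.2.2.2.1 n' n s e).symm

/-- the character of the extra torus on the field `j` -/
noncomputable def χ (j : J) : U.G →ₜ* ℂˣ :=
  ⟨(Loc.chr (W.wt j)).comp (MonoidHom.pi fun i => (Units.map (exM i)).comp τ),
    (continuous_chr _).comp (continuous_pi fun i => (Units.continuous_map (show Continuous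
      fun s : ch.AF ν κ S => s.1 i by fun_prop)).comp h.cont)⟩

theorem coe_χ (j : J) (g : U.G) : (h.χ j g : ℂ) = ∏ i, (τ g : ch.AF ν κ S).1 i ^ W.wt j i := by
  show ((∏ i, Units.map (exM i) (τ g) ^ W.wt j i : ℂˣ) : ℂ) = _
  rw [Units.coe_prod]
  exact Finset.prod_congr rfl fun i _ => Units.val_zpow_eq_zpow_val _ _

/-- the first Chern class of the line bundle of the field `j` on the universal curve -/
noncomputable def ℓ (j : J) : Hev F.US.X := c1 (F.pr.chr (h.χ j) * F.ch (ch.wd j))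

end IsCh

end Vale.Agent.P269.Grr
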