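import Vale.Agent.P287Q.G.Grr.ChQ0
import Vale.Agent.P269.Spl.Defs
import Vale.Agent.P269.Holo.Set

/-!
# Holomorphic presentations and fundamental classes
-/

set_option linter.unusedSectionVars false

namespace Vale.Agent.P269.Grr

open Set Function Topology Filter Module Vale.Agent.P291Z Vale.Agent.P269.Ch Vale.Agent.P269.Holo
  Vale.Agent.P269.Loc Vale.Agent.P269.Orb

variable {A W : Type} [NormedRing A] [NormedAlgebra ℂ A] [NormedAddCommGroup W] [NormedSpace ℂ W]
  {act : A → W → W} {S : Set W} {Y : HO}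

/-- a presentation that is biholomorphic and an isomorphism on the groups -/
structure HolP (q : Pres Y.toSp act S) (θ : Y.G →* Aˣ) : Prop where
  homeo : IsHomeomorph θ
  u : ∀ g, q.u g = θ g
  hol : ∀ t, HolAt Y.ι q.i t
  inv : ∀ t, HolAt q.i Y.ι t

namespace HolP

variable {q : Pres Y.toSp act S} {θ : Y.G →* Aˣ} (h : HolP q θ)

variable (q) in
theorem isHomeomorph : IsHomeomorph fun t => Holo.Sp.of act (q.i t) (q.mem t) :=
  isHomeomorph_iff_isEmbedding_surjective.2 ⟨q.emb.codRestrict S q.mem, fun x =>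
    (q.surj _ x.val_mem).imp fun _ e => Holo.Sp.ext e⟩

include h

theorem mfdAt {x : W} (hx : x ∈ S) : MfdAt S (finrank ℂ Y.L + Y.n) x := by
  obtain ⟨t, rfl⟩ := q.surj x hx
  have k := isHomeomorph q
  exact ⟨hx, (Y.mfd t).push (ι' := Holo.Sp.val) (lh_of_range_mem k.isEmbedding
    (k.surjective.range_eq ▸ univ_mem)) (h.hol t) (h.inv t)⟩

variable [IsAct act S]

theorem pb : PB Y.ι Holo.Sp.val θ fun t => Holo.Sp.of act (q.i t) (q.mem t) := by
  have k := isHomeomorph q
  have h1 : ∀ g, θ g = 1 → g = 1 := fun g e => h.homeo.injective (e.trans (map_one θ).symm)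
  refine ⟨⟨⟨h.homeo.surjective, h.homeo.continuous, h.homeo.isOpenMap⟩, k.continuous, fun g t => Holo.Sp.ext ?_,
    fun t t' e => ⟨1, map_one θ, (one_smul _ _).trans (k.injective e)⟩, fun _ g e _ => h1 g e,
    fun t O hO => .of_forall fun _ g e _ => h1 g e ▸ mem_of_mem_nhds hO⟩, h.hol, fun t =>
      ⟨k.homeomorph.symm, k.homeomorph.symm_apply_apply t,
        .of_forall fun _ => k.homeomorph.symm.continuous.continuousAt, ?_,
        .of_forall k.homeomorph.apply_symm_apply⟩⟩
  · exact (q.eqv g t).trans (by rw [h.u]; rfl)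
  · obtain ⟨Φ, h2, h3⟩ := h.inv t
    refine ⟨Φ, h2, ?_⟩
    have h4 := k.homeomorph.symm.continuous.tendsto' _ t (k.homeomorph.symm_apply_apply t)
    filter_upwards [h4.eventually h3] with s hs
    rw [hs]
    exact congrArg (fun y : Holo.Sp act S => Φ y.val) (k.homeomorph.apply_symm_apply s)

variable [FiniteDimensional ℂ A] [FiniteDimensional ℂ W]

theorem properSMul : ProperSMul Aˣ (Holo.Sp act S) :=
  h.pb.properSMul_push (isHomeomorph q).surjective

theorem lc : LocallyCompactSpace S :=
  (isHomeomorph q).homeomorph.symm.isClosedEmbedding.locallyCompactSpace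

theorem holOrb : HolOrb Aˣ (Holo.Sp.val : Holo.Sp act S → W) Y.n :=
  haveI := h.properSMul
  haveI := h.lc
  h.pb.holOrb_push (isHomeomorph q).surjective Y.holOrb preOrb_sp

theorem push_fnd : push q.e (fnd act S Y.n) = Y.fund := by
  have := q.nice
  have k := q.isHomeomorph_e
  have e := h.pb.res_fundQ Y.isQuo isQuo_sp (F := k.homeomorph.symm)
    (fun t => k.homeomorph.symm_apply_eq.2 (q.map t).symm) Y.holOrb h.holOrb
  have e' := push_res_homeo k.homeomorph.symm.isHomeomorph (fnd act S Y.n)
  rw [← e', push_push (IsPr.of_homeomorph _) (isPr_homeo k),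
    show q.e ∘ k.homeomorph.symm = id from funext k.homeomorph.apply_symm_apply, push_id']
  exact e

end HolP

end Vale.Agent.P269.Grr
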