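import Vale.Agent.P287Q.G.Grr.ChX
import Vale.Agent.P287Q.G.Vir.Ind

/-!
# The Koszul obstruction bundle on the family of curves of a chart
-/

set_option linter.unusedSectionVars false

namespace Vale.Agent.P269.Grr

open Set Function Topology Filter Module Vale.Agent.P291Z Vale.Agent.P269.Ch Vale.Agent.P269.Holo
  Vale.Agent.P269.Loc Vale.Agent.P269.Base PowerSeries

namespace ChK

section alg

variable {T N X : Type} [AddCommGroup T] [Module ℂ T] [AddCommGroup N] [Module ℂ N]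

variable (T N) in
/-- a two-form as a function of pairs -/
def tp : (T [⋀^Fin 2]→ₗ[ℂ] N) →ₗ[ℂ] (T × T → N) where
  toFun α m := α ![m.1, m.2]
  map_add' _ _ := rfl
  map_smul' _ _ := rfl

theorem tp_apply (α : T [⋀^Fin 2]→ₗ[ℂ] N) (v : Fin 2 → T) : tp T N α (v 0, v 1) = α v :=
  congrArg α (funext fun i => by fin_cases i <;> rfl)

variable (T N) in
theorem exists_lt : ∃ L : (T × T → N) →ₗ[ℂ] (T [⋀^Fin 2]→ₗ[ℂ] N), ∀ α, L (tp T N α) = α :=
  let ⟨L, h⟩ := LinearMap.exists_leftInverse_of_injective (tp T N) (LinearMap.ker_eq_bot'.2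
    fun α e => AlternatingMap.ext fun v => (tp_apply α v).symm.trans (congrFun e _))
  ⟨L, LinearMap.congr_fun h⟩

theorem exists_two (e : X → T →ₗ[ℂ] ℂ) {g : T × T → X → ℂ}
    (h : ∀ s, ∃ y : T →ₗ[ℂ] ℂ, ∀ m, g m s = e s m.2 * y m.1 - e s m.1 * y m.2) :
    ∃ α, wK e 2 α = 0 ∧ tp T (X → ℂ) α = g := by
  choose y hy using h
  refine ⟨wK e 1 (AlternatingMap.ofSubsingleton ℂ T (X → ℂ) 0 (-LinearMap.pi y)), wK_wK _ _ _,
    funext₂ fun m s => (KW.wK_one e _ m.1 m.2 s).trans (Eq.trans ?_ (hy s m).symm)⟩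
  change e s m.1 * -y s m.2 - e s m.2 * -y s m.1 = _
  ring

end alg

variable {J ι ν : Type} [Fintype J] [Fintype ι] [DecidableEq ι] [Fintype ν] {ch : Ch ι J}

theorem Hs_add_le {M : ι → ℕ} (C : Set (V M)) (a b : ι → ℕ) : Hs C (a + b) ≤ Hs C a * Hs C b := by
  rw [Hs, resL, LinearMap.range_comp, ← Pol, Pol_eq_span, Submodule.map_span, Submodule.span_le]
  rintro _ ⟨_, ⟨l, rfl⟩, rfl⟩
  refine (congrArg (· ∈ Hs C a * Hs C b) (funext fun y => ?_)).mp (Submodule.mul_mem_mul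
    (mem_Hs.2 ⟨_, prod_lin_mem fun s => l ⟨s.1, Fin.castAdd (b s.1) s.2⟩, fun _ => rfl⟩)
    (mem_Hs.2 ⟨_, prod_lin_mem fun s => l ⟨s.1, Fin.natAdd (a s.1) s.2⟩, fun _ => rfl⟩))
  simp only [Pi.mul_apply, LinearMap.funLeft_apply, Fintype.prod_sigma, ← Finset.prod_mul_distrib]
  exact Finset.prod_congr rfl fun i _ =>
    (Fin.prod_univ_add (a := a i) (b := b i) fun k => l ⟨i, k⟩ (y.1 i)).symm

open Pointwise Vir in
/-- the restrictions of the polynomial functions to the curve -/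
theorem map_G1 {x : ch.W ν} {C : Set (V ch.M)} {u : C → ∀ l, ch.E l →L[ℂ] ℂ}
    (hu : ∀ c : C, (c.1, u c) ∈ gr x) (j : J) (hQ : Surjective (x.Q (some j))) :
    (Submodule.span ℂ (ch.G1 j)).map (rs fun c : C => (c.1, u c)) =
      Bi (ch.PiT j) (Hs C (ch.a (some j) + ch.b j)) := by
  rw [Submodule.map_span]
  refine le_antisymm (Submodule.span_le.2 ?_) (Bi_le.trans ((Submodule.map₂_le_map₂_right
    (q₂ := Submodule.span ℂ ((Hs C (ch.b j) : Set (C → ℂ)) *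
      (Hs C (ch.a (some j)) : Set (C → ℂ)))) ?_).trans ?_))
  · rintro _ ⟨_, ⟨a, b, μ, y, rfl⟩, rfl⟩
    obtain ⟨μ', rfl⟩ := hQ y
    have : (fun c : C => val μ' c.1 * val μ c.1) ∈ Hs C (ch.a (some j) + ch.b j) :=
      mem_Hs.2 ⟨_, Pol.mul' (val_mem μ') (val_mem μ) rfl, fun _ => rfl⟩
    refine (congrArg (· ∈ Bi _ _) (funext₂ fun m c => ?_)).mp
      (tens_mem (Submodule.subset_span ⟨(a, b), rfl⟩ : _ ∈ ch.PiT j) this)
    change a m.1 * b m.2 * (val μ' c.1 * val μ c.1) =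
      a m.1 * b m.2 * val μ c.1 * u c (some j) (x.Q _ μ')
    rw [(hu c).2]
    ring
  · rw [← Submodule.mul_eq_span_mul_set, mul_comm]
    exact Hs_add_le _ _ _
  · rw [PiT, Submodule.map₂_span_span]
    refine Submodule.span_mono ?_
    rintro _ ⟨_, ⟨a, rfl⟩, _, ⟨_, ⟨μ, rfl⟩, _, ⟨μ', rfl⟩, rfl⟩, rfl⟩
    exact ⟨_, ⟨a.1, a.2, μ, x.Q _ μ', rfl⟩, funext₂ fun m y =>
      (congrArg (a.1 m.1 * a.2 m.2 * val μ y.1 * ·) ((hu y).2 _ μ')).trans (mul_assoc _ _ _)⟩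

end ChK

open ChK

variable {S Λ R J ι ν κ : Type} [Fintype S] [Fintype Λ] [Fintype R] [Fintype J] [Fintype ι]
  [DecidableEq ι] [Fintype ν] [Fintype κ] {ch : Ch ι J} {W : Wt S Λ R J}
  {O : Set (ch.WF ν κ Λ)} {U : HO}

namespace IsCh

variable {F : CF U ch.M ch.o ch.g ch.m} {p : Pres U.toSp (actF W) O} {τ : U.G →* (ch.AF ν κ S)ˣ}
  (h : IsCh F p τ)
include h

/-- the points of the graph are the points of the universal curve -/
theorem exists_gr {t : U.T} {z : ch.Pt} (hz : z ∈ gr (p.i t).2) :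
    ∃ c : F.C t, z = (c.1, uE p (CF.UT.mk t c.1 c.2)) :=
  ⟨⟨z.1, h.C t ▸ ⟨z, hz, rfl⟩⟩, Prod.ext rfl (funext fun l =>
    gr_unique (c := z.1) hz (h.uE_mem (CF.UT.mk t z.1 _)) ((h.mem_base t).1 l))⟩

theorem zz_uE (s : U.G) (x : F.UT) :
    zz (τ s : ch.AF ν κ S) ((((s, 1) : U.G × Tor ι) • x).c, uE p (((s, 1) : U.G × Tor ι) • x)) =
      (x.c, uE p x) := by
  refine Prod.ext (funext fun i => ?_) (funext fun l => ContinuousLinearMap.ext fun w =>
    (h.uE_smul (s, 1) x l w).trans ((congrArg (· * _) chr_one).trans (one_mul _)))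
  exact Eq.trans (congrArg _ ((one_smul ℂ _).trans (DFunLike.congr_fun (h.ρ s i) (x.c i))))
    (Cv.inv_ap (unit_fst (τ s).isUnit i) (x.c i))

theorem sub_smul (s : U.G) (b : ι → ℕ) (v : (F.Tb b).W) :
    sub (τ s : ch.AF ν κ S).2 Sigma.fst (show Tens ch.M b from s • v) = v :=
  ContinuousMultilinearMap.ext fun y => congrArg (show Tens ch.M b from v) (funext fun r => by
    change F.ρ s⁻¹ r.1 ((τ s : ch.AF ν κ S).2.1 r.1 (y r)) = y r
    rw [← h.ρ, F.ρ_inv])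

theorem chK (j : J) {E : VB U.toSp} {ev : F.UT → E.W →ₗ[ℂ] ℂ}
    (hE : F.IsH0 (ch.a (some j) + ch.b j) (h.χ j) E ev) {r : ℕ} {h1 h2 h3} :
    (ch.sdK ν κ W j).ch (actF W) O =
      pS p.e ((F.AT (ch.b j) E 2).sub (CF.zW (ch.b j) ev 2) r h1 h2 h3).chR := by
  have ok := h.cuts.okK (F := W) h.base j
  have := ok.fin
  obtain ⟨E₀, E₁, i, M₁, -, -, m, hr, he⟩ :=
    Ch.exists_isMod p ok.rep ok.famB ok.famN ok.le τ h.cont h.u
  obtain ⟨q, hq⟩ := hE.exists_lift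
  choose L hL using fun t => exists_lt (ch.Th j) (F.C t → ℂ)
  let res : ∀ t, (ch.Pt → ch.Th j × ch.Th j → ℂ) →ₗ[ℂ] ch.Th j × ch.Th j → F.C t → ℂ := fun t =>
    rs fun c : F.C t => (c.1, uE p (CF.UT.mk t c.1 c.2))
  have g1 : ∀ t, (Submodule.span ℂ (ch.G1 j)).map (res t) = _ := fun t =>
    map_G1 (fun c => h.uE_mem (CF.UT.mk t c.1 c.2)) j ((h.mem_base t).1 _)
  let M : U.T → E₀.W →ₗ[ℂ] (F.AT (ch.b j) E 2).W := fun t =>
    { toFun := fun w => ala _ _ (toC (Tens ch.M (ch.b j)) E.W 2 ((q _).compAlternatingMap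
        (L t (res t ((i w).1 j)))))
      map_add' := fun α β => alv_ext fun v => by
        rw [map_add, Prod.fst_add, Pi.add_apply, map_add, map_add]
        exact map_add (q _) _ _
      map_smul' := fun c α => alv_ext fun v => by
        rw [map_smul, Prod.smul_fst, Pi.smul_apply, map_smul, map_smul]
        exact map_smul (q _) _ _ }
  have k0 : ∀ t, ∀ α, (∀ v, α v ∈ Hs (F.C t) (ch.a (some j) + ch.b j)) → ∀ w,
      tp _ _ α = res t ((i w).1 j) →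
        M t w ∈ (F.AT (ch.b j) E 2).F t ∧ CF.wΨ (ch.b j) ev 2 t (M t w) = α := fun t α a w e => by
    have e' : L t (res t ((i w).1 j)) = α := e ▸ hL t α
    refine ⟨⟨fun v => (hq _ _ (e' ▸ a v)).1, fun v k hk => ?_⟩,
      AlternatingMap.ext fun v => (hq _ _ (e' ▸ a v)).2.trans (DFunLike.congr_fun e' v)⟩
    exact (congrArg (q _) (AlternatingMap.map_coord_zero _ k hk)).trans (map_zero _)
  have k1 : ∀ t, ∀ w ∈ E₀.F t, M t w ∈ CF.zW (ch.b j) ev 2 t ∧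
      tp _ _ (CF.wΨ (ch.b j) ev 2 t (M t w)) = res t ((i w).1 j) := fun t w hw => by
    obtain ⟨a, b⟩ := mem_sdK_B.1 (m.mem hw)
    obtain ⟨α, c, d⟩ := exists_two (evW (F.C t) (ch.b j)) (g := res t ((i w).1 j)) fun c =>
      let ⟨y, e⟩ := b _ (h.uE_mem (CF.UT.mk t c.1 c.2))
      ⟨y.toLinearMap, e⟩
    obtain ⟨e1, e2⟩ := k0 t α (fun v => tp_apply α v ▸ d ▸
      ((g1 t).le ⟨_, (mem_polS.1 a.1).1 j, rfl⟩).1 _) w d
    exact ⟨⟨e1, (congrArg _ e2).trans c⟩, e2 ▸ d⟩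
  have k2 : ∀ t, ∀ w ∈ E₀.F t, ∀ (v : Fin 2 → ch.Th j) (x : F.UT), x.t = t →
      ev x (alv (M t w) v) = (i w).1 j (x.c, uE p x) (v 0, v 1) := by
    rintro _ w hw v x rfl
    exact (congrFun (tp_apply _ v) ⟨x.c, x.mem⟩).symm.trans
      (congrFun (congrFun (k1 _ w hw).2 _) _)
  have k3 : ∀ w, i w ∈ ch.polS (K := Empty) Empty.elim Empty.elim := fun w => hr.le ⟨w, rfl⟩
  have k4 : Ch.Hom (Mor.id U.toSp) E₀ (F.AT (ch.b j) E 2) M := by
    refine hom_alt (fun t w hw => (k1 t w hw).1.1) (fun v => continuous_iff_continuousAt.2 fun z₀ =>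
      hE.continuousAt (add_ne (h.cuts.ne _) _) (τ := fun z : E₀.V => z.1.1) (by fun_prop)
        (.of_forall fun z => (k1 _ _ z.2).1.1.1 v) fun x hx hτ => ?_) fun s t w v hw => ?_
    · have k := tendsto_evZ (.of_forall fun z : E₀.V => k3 z.1.2) (k3 z₀.1.2)
        ((m.emb.continuous.comp (continuous_snd.comp continuous_subtype_val)).tendsto z₀)
        ((CF.UT.continuous_c.continuousAt.comp hx).prodMk (h.continuous_uE.continuousAt.comp hx))
      exact ContinuousAt.congr (f := fun z : E₀.V => (i z.1.2).1 j ((x z).c, uE p (x z)) (v 0, v 1))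
        (tendsto_pi_nhds.1 (tendsto_pi_nhds.1 k.fst_nhds j) (v 0, v 1))
        (hτ.mono fun z hz => (k2 _ _ z.2 v _ hz).symm)
    · refine hE.ext ((k1 _ _ (E₀.inv s t w hw)).1.1.1 fun i => s • v i)
        (E.inv s t _ ((k1 _ _ hw).1.1.1 v)) fun x hx => ?_
      obtain ⟨x, rfl⟩ := MulAction.surjective ((s, 1) : U.G × Tor ι) x
      have hx' : x.t = t := MulAction.injective s hx
      refine (k2 _ _ (E₀.inv s t w hw) _ _ hx).trans ?_
      refine Eq.trans ?_ (hE.ev_smul (s, 1) x (hx'.symm ▸ (k1 _ _ hw).1.1.1 v)).symm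
      rw [k2 t w hw v x hx', F.coe_lb_inl, h.coe_χ, he, h.u]
      exact congrArg (_ * ·) (congrArg₂ ((i w).1 j) (h.zz_uE s x)
        (congrArg₂ Prod.mk (h.sub_smul s _ (v 0)) (h.sub_smul s _ (v 1))))
  have m' : IsMod p (ch.sdK ν κ W j).ρ (ch.sdK ν κ W j).B (ch.sdK ν κ W j).N E₀
      ((F.AT (ch.b j) E 2).sub (CF.zW (ch.b j) ev 2) r h1 h2 h3) i M := by
    refine ⟨m.emb, m.map, m.eqv, m.le, ⟨fun t w hw => (k1 t w hw).1, k4.cont, k4.eqv⟩,
      fun t α hα => ?_, fun t w hw => ⟨fun e => mem_sdK_N.2 ⟨(mem_sdK_B.1 (m.mem hw)).1,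
        fun z hz => ?_⟩, fun e => CF.wΨ_inj hE (k1 t w hw).1.1 (k0 t 0 (fun _ => zero_mem _) w
          (funext₂ fun n c => (congrFun ((mem_sdK_N.1 e).2 _
            (h.uE_mem (CF.UT.mk t c.1 c.2))) n).symm)).2⟩⟩
    · have a := (CF.wΨ_mem hE hα.1).1
      have b := (wK_two _ (evW_ne (F.crv t))).1 hα.2
      obtain ⟨f, c, d⟩ := (g1 t).ge (show tp _ _ (CF.wΨ (ch.b j) ev 2 t α) ∈ _ from
        ⟨fun n => a _, fun c => by
          obtain ⟨y, e⟩ := b c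
          exact (congrArg (· ∈ ch.PiT j) (funext fun n => ((e n.1 n.2).trans
            (congrArg (· - _) (mul_comm _ _))).symm)).mp (sub_mem
              (Submodule.subset_span ⟨(y.toContinuousLinearMap, evL _ c.1), rfl⟩)
              (Submodule.subset_span ⟨(evL _ c.1, y.toContinuousLinearMap), rfl⟩))⟩)
      obtain ⟨w, hw, e⟩ := (m.map t).ge (mem_sdK_B.2 ⟨sgK_mem c, fun z hz => by
        obtain ⟨c, rfl⟩ := h.exists_gr hz
        obtain ⟨y, e⟩ := b c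
        exact ⟨y.toContinuousLinearMap, fun n => (congrFun (congrFun (sgK_same f) _) n).trans
          ((congrFun (congrFun d n) c).trans (e n.1 n.2))⟩⟩)
      obtain ⟨e1, e2⟩ := k0 t _ a w (by rw [e, sgK_same, d])
      exact ⟨w, hw, sub_eq_zero.1 (CF.wΨ_inj hE (sub_mem e1 hα.1)
        ((map_sub _ _ _).trans (sub_eq_zero.2 e2)))⟩
    · obtain ⟨c, rfl⟩ := h.exists_gr hz
      have a := (k1 t w hw).2
      rw [e, map_zero, map_zero] at a
      exact funext fun n => (congrFun (congrFun a n) c).symm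
  exact (IsMod.ch_eq (D := ⟨_, _, _⟩) m').trans ((congrArg _
    ((VB.chern_mon _).map _).reverse_eq.symm).trans ((VB.chern_mon _).reverse_map _))

end IsCh

end Vale.Agent.P269.Grr
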