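import Vale.Agent.P287Q.G.Grr.ChD
import Vale.Agent.P269.Grr.Sec
import Vale.Agent.P287Q.G.Map.Psi

/-!
# Frames of the relative tangent bundle; the cotangent line classes
-/

set_option linter.unusedSectionVars false

namespace Vale.Agent.P269.Grr

open Set Function Topology Filter Module Vale.Agent.P291Z Vale.Agent.P269.Ch Vale.Agent.P269.Holo
  Vale.Agent.P269.Loc Vale.Agent.P269.Base PowerSeries

namespace CF

variable {ι : Type} [Fintype ι] [DecidableEq ι] {U : HO} {M : ι → ℕ} {o : ι} {g : ℤ} {m : ι → ℤ}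
  {F : CF U M o g m}

theorem exists_tv {x : F.UT} (hx : x ∉ F.UN) : ∃ v, CF.Tv x v := by
  obtain ⟨v, v1, v2⟩ := ((F.fam x.t).smAt x.mem hx).exists_tangent (F.fam x.t)
  have h1 : Continuous fun y : F.UT => (U.ι y.t, y.c) :=
    (U.cι.comp UT.continuous_t).prodMk UT.continuous_c
  refine ⟨fun y => v (U.ι y.t, y.c), ?_⟩
  filter_upwards [h1.continuousAt.eventually v1.eventually_analyticAt,
    UT.isEmbedding.continuous.continuousAt.eventually v2] with y a b
  exact ⟨a.continuousAt.comp_of_eq h1.continuousAt rfl, b y.mem⟩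

-- a local frame of `Λ` given by a field of tangent vectors
theorem IsOm.exists_frame {Λ j} (h : F.IsOm Λ j) {x : F.UT} (hx : x ∉ F.UN) {v : F.UT → V M}
    (hv : CF.Tv x v) : ∃ l : F.UT → Λ.W, ∀ᶠ y in 𝓝 x, ContinuousAt l y ∧ l y ∈ Λ.F y ∧ l y ≠ 0 ∧
      ∃ α : ℂ, j y (l y) = α • y.c o + v y o := by
  obtain ⟨w, w1, w2⟩ := Ln.exists_ne Λ h.rank x
  have c1 : Continuous fun y : F.UT => Λ.P y w := Λ.continuous_P continuous_id continuous_const
  have c2 : Continuous fun y : F.UT => j y (Λ.P y w) :=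
    h.hom.continuous continuous_id c1 fun y => Λ.P_mem y w
  have c3 : Continuous fun y : F.UT => y.c o := (continuous_apply o).comp UT.continuous_c
  obtain ⟨v0, γ, g1, g2, g3⟩ := hv.self_of_nhds
  obtain ⟨ζ, z1⟩ := SeparatingDual.exists_ne_zero (R := ℂ) (x.ne o)
  obtain ⟨ξ, z2⟩ := SeparatingDual.exists_ne_zero (R := ℂ)
    (x := ζ (x.c o) • v x o - ζ (v x o) • x.c o) fun e => z1 (of_li_pair (by
      have := g1.imm
      rwa [g2, g3] at this) (sub_eq_zero.1 e))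
  let D : F.UT → (Fin (M o) → ℂ) → ℂ := fun y u => ξ (ζ (y.c o) • u - ζ u • y.c o)
  have d1 : ∀ {u : F.UT → Fin (M o) → ℂ} {y}, ContinuousAt u y →
      ContinuousAt (fun y => D y (u y)) y := fun hu => ξ.continuous.continuousAt.comp
    (((ζ.continuous.comp c3).continuousAt.smul hu).sub
      ((ζ.continuous.continuousAt.comp hu).smul c3.continuousAt))
  have d2 : ∀ y (α β : ℂ) u, D y (α • y.c o + β • u) = β * D y u := fun y α β u => by
    refine (congrArg ξ ?_).trans (map_smul ξ β _)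
    rw [map_add, map_smul, map_smul, smul_eq_mul, smul_eq_mul]
    module
  refine ⟨fun y => (D y (v y o) / D y (j y (Λ.P y w))) • Λ.P y w, ?_⟩
  filter_upwards [hv, F.isClosed_UN.isOpen_compl.mem_nhds hx,
    c1.continuousAt.eventually_ne ((Λ.P_eq w1).trans_ne w2),
    (d1 (continuousAt_pi.1 v0 o)).eventually_ne z2] with y ⟨a1, δ, a2, a3, a4⟩ a5 a6 a7
  obtain ⟨α, β, b1, b2⟩ := h.sm y δ a5 a2 a3 _ (Λ.P_mem y w) a6
  rw [a4] at b2
  have b3 : D y (j y (Λ.P y w)) = β * D y (v y o) := b2 ▸ d2 y α β _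
  have b4 : D y (v y o) / D y (j y (Λ.P y w)) = β⁻¹ := by
    rw [b3, div_mul_cancel_right₀ a7]
  refine ⟨((d1 (continuousAt_pi.1 a1 o)).div (d1 c2.continuousAt)
    (b3.trans_ne (mul_ne_zero b1 a7))).smul c1.continuousAt,
    Submodule.smul_mem _ _ (Λ.P_mem y w), b4 ▸ smul_ne_zero (inv_ne_zero b1) a6, β⁻¹ * α, ?_⟩
  rw [b4, map_smul, b2, smul_add, smul_smul, inv_smul_smul₀ b1]

variable {A W : Type} [NormedRing A] [NormedAlgebra ℂ A] [NormedAddCommGroup W] [NormedSpace ℂ W]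
  {act : A → W → W} {S : Set W} {ρ : A → V M → V M} {B N : W → Submodule ℂ (V M)}

namespace Sec

variable (s : F.Sec)

theorem continuous_p : Continuous s.p := UT.continuous_c.comp s.m.cf

theorem not_isNode (t : U.T) : ¬IsNode o (F.C t) (s.p t) := fun e =>
  s.sm t (F.mem_UN.2 ((s.t t).symm ▸ e))

theorem p_ne (t : U.T) (i : ι) : s.p t i ≠ 0 := UT.ne _ i

theorem ρ_eq (γ : U.G) : s.m.ρ γ = ((γ, (show U.G × Tor ι from s.m.ρ γ).2) : U.G × Tor ι) :=
  Prod.ext (s.ρ γ) rfl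

theorem p_smul' (γ : U.G) (t : U.T) : s.p (γ • t) = F.act (s.m.ρ γ) (s.p t) :=
  congrArg UT.c (s.m.eqv γ t)

theorem exists_br (t : U.T) : ∃ γ, IsBranch o (F.C t) γ ∧ γ 0 = s.p t :=
  Psi.exists_br (F.crv t).nod (s.p_mem t)

/-- the tangent spaces of the cones along the section -/
noncomputable def TgB : VB U.toSp :=
  (F.VM.pb s.m).sub (fun t => Psi.Tg (F.C t) (s.p t)) (Fintype.card ι + 1)
    (Psi.isClosed_span (κ := Option ι) (B := fun t => Psi.Tg (F.C t) (s.p t)) fun t => by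
      obtain ⟨v, hv⟩ := exists_tv (s.sm t)
      have h1 : ∀ᶠ y in 𝓝 t, ∃ γ, IsBranch o (F.C y) γ ∧ γ 0 = s.p y ∧ deriv γ 0 = v (s.m.f y) :=
        (s.m.cf.continuousAt.eventually hv).mono fun y hy => by
          have := hy.2
          rwa [s.t] at this
      refine ⟨fun y => Psi.fr (s.p y) (v (s.m.f y)), continuousAt_pi.2 fun k => ?_, ?_,
        h1.mono fun y ⟨γ, a, b, c⟩ => ?_⟩
      · cases k
        exacts [hv.self_of_nhds.1.comp s.m.cf.continuousAt,
          Psi.continuousAt_single s.continuous_p.continuousAt _]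
      · obtain ⟨γ, a, b, c⟩ := h1.self_of_nhds
        have := Psi.li_fr (F.crv t).nod a
        rwa [b, c] at this
      · have := Psi.Tg_eq (F.crv y).nod a (b ▸ s.not_isNode y)
        rwa [b, c] at this)
    (fun t => by
      obtain ⟨γ, a, b⟩ := s.exists_br t
      have := finrank_span_eq_card (Psi.li_fr (F.crv t).nod a)
      rwa [← Psi.Tg_eq (F.crv t).nod a (b ▸ s.not_isNode t), b, Fintype.card_option] at this)
    fun a t w hw => by
      have := Psi.Tg_map (C' := F.C (a • t)) (LinearMap.toContinuousLinearMap (F.act (s.m.ρ a)))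
        (fun c hc => (congrArg (fun b : U.G => F.C (b • t)) (s.ρ a)).subset (F.act_mem _ hc)) hw
      rw [s.p_smul']
      exact this

/-- the tangent spaces of the orbits along the section -/
noncomputable def NrB : VB U.toSp :=
  (F.VM.pb s.m).sub (fun t => Psi.Nr (s.p t)) (Fintype.card ι)
    (Psi.isClosed_span (B := fun t => Psi.Nr (s.p t)) fun t => ⟨fun y i => Pi.single i (s.p y i),
      continuousAt_pi.2 (Psi.continuousAt_single s.continuous_p.continuousAt), Psi.li (s.p_ne t),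
      .of_forall fun _ => rfl⟩)
    (fun t => (finrank_span_eq_card (Psi.li (s.p_ne t)) :)) fun a t w hw => by
      obtain ⟨b, rfl⟩ := Psi.mem_Nr.1 hw
      refine Psi.mem_Nr.2 ⟨b, funext fun i => ?_⟩
      rw [s.p_smul']
      show F.act (s.m.ρ a) (b • s.p t) i = b i • F.act (s.m.ρ a) (s.p t) i
      exact (congrArg (((show U.G × Tor ι from s.m.ρ a).2 i : ℂ) • ·)
        (map_smul (F.ρ _ i) (b i) (s.p t i))).trans (smul_comm _ (b i) _)

theorem exists_isMod {Λ j} (h : F.IsOm Λ j) (p : Pres U.toSp act S)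
    (hρ : ∀ (γ : U.G) v, ρ (p.u γ) v = F.act (γ, (show U.G × Tor ι from s.m.ρ γ).2) v)
    (hB : ∀ t, B (p.i t) = Psi.Tg (F.C t) (s.p t)) (hN : ∀ t, N (p.i t) = Psi.Nr (s.p t)) :
    ∃ (E : VB U.toSp) (e : U.T → V M →ₗ[ℂ] E.W), IsMod p ρ B N s.TgB E LinearMap.id e ∧
      E.eu = Hev.map s.m.map Λ.eu := by
  have hle : ∀ t, Psi.Nr (s.p t) ≤ Psi.Tg (F.C t) (s.p t) := fun t =>
    Psi.Nr_le (F.crv t).nod (s.p_mem t)
  obtain ⟨E, e, h1, h2⟩ := Hom.exists_coker (E' := s.NrB) (E := s.TgB) (A := fun _ => LinearMap.id)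
    (Hom.of_continuous (fun t w hw => hle t hw) continuous_snd fun _ _ _ _ => rfl) fun _ _ _ h => h
  have h3 : ∀ t, ∀ w ∈ Psi.Tg (F.C t) (s.p t), e t w = 0 ↔ w ∈ Psi.Nr (s.p t) := fun t w hw =>
    (h2.ex t w hw).trans ⟨by rintro ⟨w, h, rfl⟩; exact h, fun h => ⟨w, h, rfl⟩⟩
  have h4 : ∀ t γ, IsBranch o (F.C t) γ → γ 0 = s.p t → ∀ l ∈ Λ.F (s.m.f t), l ≠ 0 →
      ∃ α β : ℂ, β ≠ 0 ∧ j (s.m.f t) l = α • s.p t o + β • deriv γ 0 o := fun t γ a =>
    h.sm (s.m.f t) γ (s.sm t) ((s.t t).symm ▸ a)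
  refine ⟨E, e, ⟨IsEmbedding.id, fun t => (Submodule.map_id _).trans (hB t).symm,
    fun a t w _ => ?_, fun t => by rw [hN, hB]; exact hle t, h2.hB, h2.surj,
    fun t w hw => by rw [hN]; exact h3 t w hw⟩, Eq.trans ?_ (Λ.eu_pb s.m)⟩
  · rw [hρ, ← s.ρ_eq]
    exact (sub_self (F.act (s.m.ρ a) w)).symm ▸ zero_mem _
  refine eu_eq_of_quot (K := s.TgB) (O := char 1)
    (E := ((F.Vb o).tw F.pr (F.ch (Pi.single o 1))).pb s.m)
    (p := fun _ => (LinearMap.proj o : V M →ₗ[ℂ] (Fin (M o) → ℂ)))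
    (c := fun t => LinearMap.toSpanSingleton ℂ (Fin (M o) → ℂ) (s.p t o)) h2.hB
    (Hom.of_continuous (fun _ _ _ => trivial) ((continuous_apply o).comp continuous_snd)
      fun a _ w _ => congrArg (fun u : ℂˣ => (u : ℂ) • F.ρ _ o ((show V M from w) o))
        (F.ch_single (s.m.ρ a)).symm)
    (h.hom.pb' s.m) (Hom.of_continuous (fun _ _ _ => trivial) (show Continuous
      fun x : U.T × ℂ => x.2 • s.p x.1 o from continuous_snd.smul ((continuous_apply o).comp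
        (s.continuous_p.comp continuous_fst)))
      fun a t (z : ℂ) _ => ?_) (h1.trans ((Nat.add_sub_cancel_left _ _).trans h.rank.symm)) h2.surj
    (fun t z _ hz => (smul_eq_zero.1 hz).resolve_right (s.p_ne t o))
    (fun t l hl (z : ℂ) _ hz => ?_) fun t (w : V M) hw => ?_
  · show ((1 : ℂ) • z) • UT.c (s.m.f (a • t)) o =
      (F.ch (Pi.single o 1) (s.m.ρ a) : ℂ) • F.ρ _ o (z • s.p t o)
    rw [s.m.eqv, F.ch_single (s.m.ρ a), map_smul, one_smul, smul_comm]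
    rfl
  · obtain ⟨γ, a1, a2⟩ := s.exists_br t
    by_contra l0
    obtain ⟨α, β, b1, b2⟩ := h4 t γ a1 a2 l hl l0
    refine b1 (of_li_pair a1.imm (s := z - α) ?_)
    rw [a2, sub_smul, eq_sub_iff_add_eq']
    exact b2.symm.trans hz.symm
  · obtain ⟨γ, a1, a2⟩ := s.exists_br t
    obtain ⟨l₀, c1, c2⟩ := Ln.exists_ne Λ h.rank (s.m.f t)
    obtain ⟨α, β, b1, b2⟩ := h4 t γ a1 a2 l₀ c1 c2
    have b3 := Psi.mem_Tg (v := w) (F.crv t).nod a1 (a2 ▸ s.not_isNode t)
    rw [a2] at b3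
    obtain ⟨a, b4⟩ := b3.1 hw
    obtain ⟨b, b5⟩ := Psi.mem_Nr.1 b4
    refine ⟨(a / β) • l₀, Submodule.smul_mem _ _ c1, b o - a / β * α, trivial, ?_,
      fun e0 => (h3 t w hw).2 ?_⟩
    · refine (eq_add_of_sub_eq (congrFun b5 o)).trans ?_
      show b o • s.p t o + a • deriv γ 0 o = j (s.m.f t) ((a / β) • l₀) +
        (b o - a / β * α) • s.p t o
      rw [map_smul, b2, smul_add, smul_smul _ β, div_mul_cancel₀ _ b1]
      module
    · rwa [(div_eq_zero_iff.1 ((smul_eq_zero.1 e0).resolve_right c2)).resolve_right b1, zero_smul,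
        sub_zero] at b4

end Sec

-- the tangent line at a section
theorem Sec.eu_tan (s : F.Sec) {Λ j} (h : F.IsOm Λ j) (p : Pres U.toSp act S)
    (hρ : ∀ (γ : U.G) v, ρ (p.u γ) v = F.act (γ, (show U.G × Tor ι from s.m.ρ γ).2) v)
    (hB : ∀ t, B (p.i t) = Psi.Tg (F.C t) (s.p t)) (hN : ∀ t, N (p.i t) = Psi.Nr (s.p t)) :
    hcls (eulerC act ρ S B N) = H.map p.e (Hev.map s.m.map Λ.eu).1 :=
  let ⟨_, _, h1, h2⟩ := s.exists_isMod h p hρ hB hN
  h2 ▸ h1.hcls_eulerC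

end CF

variable {S Λ R J ι ν κ : Type} [Fintype S] [Fintype Λ] [Fintype R] [Fintype J] [Fintype ι]
  [DecidableEq ι] [Fintype ν] [Fintype κ] {ch : Ch ι J} {W : Wt S Λ R J}
  {O : Set (ch.WF ν κ Λ)} {U : HO}

namespace IsCh

variable {F : CF U ch.M ch.o ch.g ch.m} {p : Pres U.toSp (actF W) O} {τ : U.G →* (ch.AF ν κ S)ˣ}
  (h : IsCh F p τ)
include h

theorem psi {L j} (hL : F.IsOm L j) (n : Mk ν κ) : hcls (psiF n : Coch (Quo (actF W) O)) =
    H.map p.e (-Hev.map (h.sec n).m.map L.eu).1 := by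
  obtain ⟨_, _, h1, h2⟩ := (h.sec n).exists_isMod (ρ := (ch.sdψ S Λ n).ρ) (B := (ch.sdψ S Λ n).B)
    (N := (ch.sdψ S Λ n).N) hL p (fun γ v => funext fun i => by
      rw [CF.act_apply, h.ρ, h.u]
      rfl) (fun t => by rw [h.C]; rfl) fun _ => rfl
  rw [psiF_eq, ← h2]
  exact (hcls_neg h1.eulerC_cocycle).trans ((congrArg Neg.neg h1.hcls_eulerC).trans
    (map_neg _ _).symm)

end IsCh

end Vale.Agent.P269.Grr
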