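import Vale.Agent.P287Q.G.Grr.ChA
import Vale.Agent.P287Q.G.Grr.Frm
import Vale.Agent.P269.Grr.Fin
import Vale.Agent.P269.Prop.Rel

/-!
# The logarithmic dualising sheaf of the family of curves over a chart
-/

set_option linter.unusedSectionVars false

namespace Vale.Agent.P269.Grr

open Set Function Topology Filter Module Vale.Agent.P291Z Vale.Agent.P269.Ch Vale.Agent.P269.Holo
  Vale.Agent.P269.Loc Vale.Agent.P269.Base PowerSeries

variable {S Λ R J ι ν κ : Type} [Fintype S] [Fintype Λ] [Fintype R] [Fintype J] [Fintype ι]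
  [DecidableEq ι] [Fintype ν] [Fintype κ] {ch : Ch ι J} {W : Wt S Λ R J}
  {O : Set (ch.WF ν κ Λ)} {U : HO}

namespace ChL

/-- the value of the trivialisation on a vector of the factor `o` -/
noncomputable def ph (x : ch.W ν) (c : V ch.M) (w : Fin (ch.M ch.o) → ℂ) : ℂ :=
  Classical.epsilon (Rl x c (Pi.single ch.o w))

theorem ph_eq {x : ch.W ν} {c v : V ch.M} {w : Fin (ch.M ch.o) → ℂ} {ρ a b : ℂ} (hc : c ∈ crv x)
    (li : LinearIndependent ℂ ![c ch.o, w]) (h : Rl x c v ρ) (e : v ch.o = a • c ch.o + b • w) :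
    ph x c w = ρ * b ^ ch.k :=
  have h1 : Rl x c (Pi.single ch.o w) (ρ * b ^ ch.k) :=
    h.of_eq (a := a) (by rw [Pi.single_eq_same, e])
  Rl.unique (Classical.epsilon_spec ⟨_, h1⟩) h1 hc (by rwa [Pi.single_eq_same])

variable {F : CF U ch.M ch.o ch.g ch.m} {p : Pres U.toSp (actF W) O} {τ : U.G →* (ch.AF ν κ S)ˣ}
  (h : IsCh F p τ)
include h

theorem mem (y : F.UT) : y.c ∈ crv (p.i y.t).2 := h.C y.t ▸ y.mem

section

variable {T : VB F.US} {j : F.UT → T.W →ₗ[ℂ] (Fin (ch.M ch.o) → ℂ)} (hT : F.IsOm T j)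
  {y : F.UT} (hy : y ∉ F.UN) {l : T.W} (hl : l ∈ T.F y) (h0 : l ≠ 0)
include hT hy hl h0

theorem spec : LinearIndependent ℂ ![y.c ch.o, j y l] ∧
    Rl (p.i y.t).2 y.c (Pi.single ch.o (j y l)) (ph (p.i y.t).2 y.c (j y l)) := by
  obtain ⟨v, hv⟩ := CF.exists_tv hy
  obtain ⟨-, γ, h1, h2, -⟩ := hv.self_of_nhds
  obtain ⟨α, β, h3, h4⟩ := hT.sm y γ hy h1 h2 l hl h0
  obtain ⟨ρ, -, h5⟩ := (h.mem_base y.t).2.2.2.2.2.1 γ (h.C y.t ▸ h1)
  obtain ⟨f, -, -, h6⟩ := h5.rel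
  have h7 := h6.self_of_nhds
  have h8 := h1.imm
  rw [h2] at h7 h8
  refine ⟨li_pair (y.ne _) fun e s he => ?_,
    Classical.epsilon_spec ⟨_, h7.of_eq (a := -α / β) (b := β⁻¹) ?_⟩⟩
  · refine (mul_eq_zero.1 (of_li_pair h8 (e := e * β) (s := s - e * α) ?_)).resolve_right h3
    rw [sub_smul, ← he, h4]
    module
  · rw [Pi.single_eq_same, h4, smul_add, smul_smul, smul_smul, inv_mul_cancel₀ h3, one_smul,
      ← add_assoc, ← add_smul, neg_div, div_eq_inv_mul, neg_add_cancel, zero_smul, zero_add]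

theorem hom {z : ℂ} (hz : z ≠ 0) :
    ph (p.i y.t).2 y.c (j y (z • l)) * z ^ ch.k = ph (p.i y.t).2 y.c (j y l) :=
  (ph_eq (mem h y) (spec h hT hy hl h0).1
    (spec h hT hy (Submodule.smul_mem _ z hl) (smul_ne_zero hz h0)).2 (a := 0)
    (by rw [Pi.single_eq_same, map_smul, zero_smul, zero_add])).symm

theorem eqv (g : U.G × Tor ι) :
    ph (p.i (g • y).t).2 (g • y).c (j (g • y) ((show F.US.G from g) • l)) =
      F.ch ch.χ g * ph (p.i y.t).2 y.c (j y l) := by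
  obtain ⟨u, hu⟩ := isUnit_dupF (τ g.1).isUnit
  have h1 : (p.i (g • y).t).2 = act (u : ch.A (Mk ν κ))
      (scl (fun j => ∏ i, (τ g.1 : ch.AF ν κ S).1 i ^ W.wt j i) (p.i y.t).2) := by
    rw [hu]
    exact congrArg Prod.snd (h.eqv g.1 y.t)
  have h2 : ∀ v : V ch.M, (fun i => (g.2 i : ℂ)) • gV (gU u) v = F.act g v := fun v =>
    funext fun i => by
      show (g.2 i : ℂ) • (u : ch.A (Mk ν κ)).1 i (v i) = (g.2 i : ℂ) • F.ρ g.1 i (v i)
      rw [hu, h.ρ]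
      rfl
  have h3 := ((rel_act (x := scl (fun j => ∏ i, (τ g.1 : ch.AF ν κ S).1 i ^ W.wt j i)
    (p.i y.t).2) u).2 (spec h hT hy hl h0).2).smul (s := fun i => g.2 i) fun i => (g.2 i).ne_zero
  rw [← h1, h2, h2] at h3
  refine (ph_eq (mem h _) (spec h hT (y := g • y) (fun e => hy ((F.isNode_act g).1 e))
    (T.inv g _ _ hl) ((smul_ne_zero_iff_ne _).2 h0)).1 h3 (a := 0) (b := 1) ?_).trans ?_
  · rw [zero_smul, zero_add, one_smul, CF.act_apply, Pi.single_eq_same, ← F.ch_single]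
    exact (hT.hom.eqv g y l hl).symm
  · show _ = ((∏ i, g.2 i ^ ch.χ i : ℂˣ) : ℂ) * _
    simp only [one_pow, mul_one, Units.coe_prod, Units.val_zpow_eq_zpow_val]

end

theorem loc {L : Mk ν κ → VB F.US} {σ : ∀ n, F.UT → (L n).W}
    (hL : ∀ n, (h.sec n).IsDv (L n) (σ n)) {x : F.UT} (hx : x ∉ F.UN) :
    ∃ (v : F.UT → V ch.M) (e : ∀ n, F.UT → (L n).W) (f : Mk ν κ → F.UT → ℂ) (u : F.UT → ℂ),
      CF.Tv x v ∧ (∀ n, e n x ≠ 0) ∧ u x ≠ 0 ∧ ∀ᶠ y in 𝓝 x, ContinuousAt u y ∧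
        (∀ n, ContinuousAt (e n) y ∧ e n y ∈ (L n).F y ∧ σ n y = f n y • e n y) ∧
        Rl (p.i y.t).2 y.c (v y) (u y * ∏ n, f n y ^ ch.k) := by
  classical
  have key : ∀ n y, ContinuousAt (σ n) y ∧ σ n y ∈ (L n).F y ∧ σ n y = (1 : ℂ) • σ n y :=
    fun n y => ⟨(hL n).sec.cont.continuousAt, (hL n).sec.mem y, (one_smul _ _).symm⟩
  by_cases hD : ∃ n, x ∈ (h.sec n).D
  · obtain ⟨n, hn⟩ := hD
    obtain ⟨v, u, Φ, a1, a2, a3, a4, a5, a6⟩ := h.lead_on hn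
    obtain ⟨l, b1, b2⟩ := (hL n).loc x hn _ Φ a3 (.of_forall fun _ => rfl) a4 a5
    refine ⟨v, update σ n l, update 1 n fun y => Φ (F.ιU y), u, a1, fun m => ?_, a2, ?_⟩
    · rcases eq_or_ne m n with rfl | e
      · rwa [update_self]
      · rw [update_of_ne e]
        exact fun e' => e (h.sec_inj _ _ _ (Base.Orb.trans (((hL m).zero x).1 e') (Base.Orb.symm hn)))
    filter_upwards [a6, b2] with y c1 c2
    refine ⟨c1.1, fun m => ?_, ?_⟩
    · rcases eq_or_ne m n with rfl | e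
      · rwa [update_self, update_self]
      · rw [update_of_ne e, update_of_ne e]
        exact key m y
    · rw [Finset.prod_eq_single n (fun m _ e => by rw [update_of_ne e]; exact one_pow _)
        (fun e => absurd (Finset.mem_univ n) e), update_self]
      exact c1.2
  · obtain ⟨v, u, a1, a2, a3⟩ := h.lead_off hx (not_exists.1 hD)
    refine ⟨v, σ, fun _ _ => 1, u, a1, fun n e => hD ⟨n, ((hL n).zero x).1 e⟩, a2,
      a3.mono fun y c => ⟨c.1, fun n => key n y, ?_⟩⟩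
    simp only [one_pow, Finset.prod_const_one, mul_one]
    exact c.2

end ChL

namespace IsCh

variable {F : CF U ch.M ch.o ch.g ch.m} {p : Pres U.toSp (actF W) O} {τ : U.G →* (ch.AF ν κ S)ˣ}
  (h : IsCh F p τ)
include h

-- `ω_log ^ k = O(χ)`
theorem log {T j} (hT : F.IsOm T j) {L : Mk ν κ → VB F.US} {σ : ∀ n, F.UT → (L n).W}
    (hL : ∀ n, (h.sec n).IsDv (L n) (σ n)) :
    cap (ch.k • T.eu + c1 (F.ch ch.χ) - ch.k • ∑ n, (L n).eu).1 F.UC.fund = 0 := by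
  have deg : ∀ E : VB F.US, E.r = 1 → E.eu ∈ Hev.deg F.US.X 1 := fun E e => by
    have := E.eu_deg
    rwa [e, Nat.cast_one] at this
  refine CF.cap_eq_zero (sub_mem (add_mem (nsmul_mem (deg _ hT.rank) _) (c1_deg _))
    (nsmul_mem (sum_mem fun n _ => deg _ (hL n).rank) _)) ?_
  have hi : IsOpenMap (F.US.subI F.Sm F.isOpen_Sm.isLocallyClosed).f :=
    F.isOpen_Sm.isOpenMap_subtype_val
  have hm : ∀ y, (F.US.subI F.Sm F.isOpen_Sm.isLocallyClosed).f y ∉ F.UN := fun y => y.2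
  generalize F.US.subI F.Sm F.isOpen_Sm.isLocallyClosed = i at hi hm ⊢
  rw [map_sub, map_add, map_nsmul, map_nsmul, map_sum, map_c1, sub_eq_zero]
  simp only [← VB.eu_pb]
  refine eu_of_div (Λ := T.pb i) hT.rank (fun n => (hL n).rank) (fun n => (hL n).sec.pb i) ?_
    (φ := fun y l => ChL.ph (p.i (CF.UT.t (i.f y))).2 (CF.UT.c (i.f y)) (j (i.f y) l))
    (fun y l hl h0 z hz => ChL.hom h hT (hm y) hl h0 hz) (fun g y l hl h0 => ?_) fun x => ?_
  · refine ((dense_iInter_of_isOpen (fun n => (h.sec n).isClosed_D.isOpen_compl)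
      fun n => (h.sec n).dense_compl).preimage hi).mono fun y hy n e => ?_
    exact mem_iInter.1 hy n (((hL n).zero _).1 e)
  · rw [i.eqv]
    exact ChL.eqv h hT (hm y) hl h0 (i.ρ g)
  · obtain ⟨v, e, f, u, a1, a2, a3, a4⟩ := ChL.loc h hL (hm x)
    obtain ⟨l, a5⟩ := hT.exists_frame (hm x) a1
    refine ⟨fun y => l (i.f y), fun n y => e n (i.f y), fun n y => f n (i.f y),
      fun y => u (i.f y), a5.self_of_nhds.2.2.1, a2, a3, ?_⟩
    filter_upwards [i.cf.continuousAt.eventually (a4.and a5)] with y ⟨b1, b2, b3, b4, α, b5⟩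
    refine ⟨b2.comp i.cf.continuousAt, b3, b1.1.comp i.cf.continuousAt,
      fun n => ⟨(b1.2.1 n).1.comp i.cf.continuousAt, (b1.2.1 n).2⟩, ?_⟩
    refine (ChL.ph_eq (ChL.mem h _) (ChL.spec h hT (hm y) b3 b4).1 b1.2.2 (a := -α) (b := 1)
      ?_).trans (by rw [one_pow, mul_one])
    rw [b5, one_smul, neg_smul, neg_add_cancel_left]

end IsCh

end Vale.Agent.P269.Grr
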