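import Vale.Agent.P287Q.G.Grr.ChD

/-!
# Presentations: construction, characters, transport of classes
-/

set_option linter.unusedSectionVars false

namespace Vale.Agent.P269.Grr

open Set Function Topology Filter Module Vale.Agent.P291Z Vale.Agent.P269.Ch

section pres

variable {A W : Type} [NormedRing A] [NormedAlgebra ℂ A] [NormedAddCommGroup W] [NormedSpace ℂ W]
  {act : A → W → W} {S : Set W} {Y : Ch.Sp}

theorem exists_pres {u : Y.G → A} {i : Y.T → W} (emb : IsEmbedding i) (mem : ∀ t, i t ∈ S)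
    (surj : ∀ x ∈ S, ∃ t, i t = x) (unit : ∀ g, IsUnit (u g))
    (usurj : ∀ a, IsUnit a → ∃ g, u g = a) (eqv : ∀ g t, i (g • t) = act (u g) (i t)) :
    ∃ p : Pres Y act S, p.u = u ∧ p.i = i := by
  choose s hs using surj
  have h1 : Continuous fun x : S => s x x.2 :=
    emb.continuous_iff.2 (continuous_subtype_val.congr fun x => (hs x x.2).symm)
  refine ⟨⟨u, i, ⟨Quot.lift (fun x : S => Y.π (s x x.2)) ?_,
    continuous_quot_lift _ (Y.quo.continuous.comp h1)⟩, emb, mem, fun x hx => ⟨_, hs x hx⟩, unit,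
    usurj, eqv, fun t => congrArg Y.π (emb.injective (hs _ (mem t)))⟩, rfl, rfl⟩
  rintro x y ⟨a, ha, e⟩
  obtain ⟨g, rfl⟩ := usurj a ha
  exact (Y.fib _ _).2 ⟨g, emb.injective (by rw [eqv, hs, hs, e])⟩

theorem hcls_char (p : Pres Y act S) (χ : Y.G →ₜ* ℂˣ) {c : A → ℂ} (h : ∀ g, c (p.u g) = χ g) :
    hcls (eulerC act (fun s (z : ℂ) => c s * z) S (fun _ => ⊤) fun _ => ⊥) =
      H.map p.e (c1 χ).1 :=
  IsMod.hcls_eulerC (p := p) (E₀ := char χ) (E := char χ) (ι := LinearMap.id)
    (M := fun _ => LinearMap.id) ⟨IsEmbedding.id, fun _ => Submodule.map_id _,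
      fun g _ (w : ℂ) _ => show (χ g : ℂ) * w - c (p.u g) * w = 0 by rw [h, sub_self],
      fun _ => bot_le, Hom.of_continuous (fun _ _ h => h) continuous_snd fun _ _ _ _ => rfl,
      fun _ w hw => ⟨w, hw, rfl⟩, fun _ _ _ => Iff.rfl⟩

end pres

section sq

variable {X X' Y Y' : Type} [TopologicalSpace X] [TopologicalSpace X'] [TopologicalSpace Y]
  [TopologicalSpace Y'] [Nice X] [Nice X'] [Nice Y] [Nice Y'] {e : C(X, Y)} {e' : C(X', Y')}

omit [Nice X] [Nice Y] in
theorem isPr_homeo (he : IsHomeomorph e) : IsPr e := .of_isClosedEmbedding he.isClosedEmbedding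

omit [Nice X] [Nice X'] [Nice Y] [Nice Y'] in
theorem isPr_sq (he : IsHomeomorph e) (he' : IsHomeomorph e') {f : X' → X} {g : Y' → Y}
    (hg : IsPr g) (hs : ∀ x, e (f x) = g (e' x)) : IsPr f := by
  have h : f = he.homeomorph.symm ∘ g ∘ e' := funext fun x =>
    he.injective ((hs x).trans (he.homeomorph.apply_symm_apply _).symm)
  exact h ▸ (IsPr.of_homeomorph _).comp (hg.comp (isPr_homeo he'))

theorem push_sq (he : IsHomeomorph e) (he' : IsHomeomorph e') {f : X' → X} {g : Y' → Y}
    (hg : IsPr g) (hs : ∀ x, e (f x) = g (e' x)) (c : H Y') (β : BM X') :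
    push e (push f (cap (H.map e' c) β)) = push g (cap c (push e' β)) := by
  rw [push_push (isPr_sq he he' hg hs) (isPr_homeo he), show e ∘ f = g ∘ e' from funext hs,
    ← push_push (isPr_homeo he') hg, push_cap (isPr_homeo he')]

theorem push_injective (he : IsHomeomorph e) : Injective (push e : BM X → BM Y) :=
  LeftInverse.injective (res_push_homeo he)

end sq

end Vale.Agent.P269.Grr
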