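import Vale.Agent.P269.Grr.Main
import Vale.Agent.P287Q.G.Grr.ChQ0
import Vale.Agent.P287Q.G.Fg.Defs

/-!
# The degree of `O(a)` on the fibres of the universal curve
-/

set_option linter.unusedSectionVars false

namespace Vale.Agent.P269.Grr

open Set Function Topology Filter Module Vale.Agent.P291Z Vale.Agent.P269.Ch Vale.Agent.P269.Holo
  Vale.Agent.P269.Loc Vale.Agent.P269.Base PowerSeries

namespace CF

variable {ι : Type} [Fintype ι] [DecidableEq ι] {U : HO} {M : ι → ℕ} {o : ι} {g : ℤ} {m : ι → ℤ}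
  (F : CF U M o g m)

theorem exists_dA_ch (t : U.T) : ∃ β : BM U.X, ∀ a : ι → ℕ, a ≠ 0 →
    IsPush.dA F (c1 (F.ch fun i => a i)) = ((dg m a : ℤ) : ℂ) • U.fund + β := by
  obtain ⟨Λ, j, gN, Φ, -, h⟩ := F.grr
  refine ⟨((1 - g : ℤ) : ℂ) • U.fund - IsPush.dA F (coeff 1 (tdC Λ gN Φ)), fun a ha => ?_⟩
  obtain ⟨E, ev, hE⟩ := F.exists_H0 ha 1
  have h1 := IsPush.iff.1 (h a ha 1 E ev hE) (0 + 1)
  have h2 : coeff 0 (tdC Λ gN Φ) = 1 := by
    simp [tdC, constantCoeff_ev, constantCoeff_tdS]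
  have h3 : IsPush.dB U (E.r : Hev U.X) = (E.r : ℂ) • U.fund := by
    rw [← mul_one (E.r : Hev U.X), ← nsmul_eq_mul, ← Nat.cast_smul_eq_nsmul ℂ, map_smul]
    exact congrArg _ (pd_one _)
  have h4 : F.lb 1 a = F.ch fun i => a i := ContinuousMonoidHom.ext fun s => one_mul _
  rw [coeff_succ_X_mul, VB.chc, coeff_zero_chP, h3, zero_add, Hrr.coeff_one_mul, h2, coeff_ex,
    coeff_ex, h4, ← Int.cast_natCast, hE.rank ha t] at h1
  simp only [Nat.factorial, Nat.cast_one, inv_one, pow_zero, one_smul, one_mul, mul_one, pow_one,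
    map_add, Nat.succ_eq_add_one, zero_add] at h1
  rw [← add_sub_assoc, ← add_smul, ← Int.cast_add, ← add_sub_assoc, h1, add_sub_cancel_left]

/-- **the degree of `O(a)` on the fibres** -/
theorem push_ch (a : ι → ℤ) : push F.pr.map (cap (c1 (F.ch a)).1 F.UC.fund) =
    ((∑ i, a i * m i : ℤ) : ℂ) • U.fund := by
  rcases isEmpty_or_nonempty U.T with k | ⟨⟨t⟩⟩
  · have h1 : (1 : Hev U.X) = 0 := by
      simpa using congrArg (coeff 0) ((subsingleton_series (Y := U.toSp)).elim 1 0)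
    have h2 : ∀ β : BM U.X, β = 0 := fun β => (pd_one β).symm.trans
      ((congrArg (fun c : Hev U.X => pd β c.1) h1).trans (map_zero _))
    exact (h2 _).trans (h2 _).symm
  obtain ⟨β, h⟩ := F.exists_dA_ch t
  have h1 := h (fun i => (a i).toNat + 1) fun e => Nat.succ_ne_zero _ (congrFun e o)
  have h2 := h (fun i => (-a i).toNat + 1) fun e => Nat.succ_ne_zero _ (congrFun e o)
  have h3 : ∀ i, (((a i).toNat + 1 : ℕ) : ℤ) = a i + ((-a i).toNat + 1 : ℕ) := fun i => by omega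
  have h4 : (F.ch fun i => ((a i).toNat + 1 : ℕ)) = F.ch a * F.ch fun i => ((-a i).toNat + 1 : ℕ) :=
    ContinuousMonoidHom.ext fun s => (congrArg (Loc.chr · s.2) (funext h3)).trans (chr_add _ _ _)
  rw [h4, c1_mul, map_add, h2, ← add_assoc, add_left_inj, dg, dg] at h1
  simp only [h3, add_mul _ _ (m _), Finset.sum_add_distrib, Int.cast_add, add_smul] at h1
  exact add_right_cancel h1

end CF

variable {S Λ R J ι ν κ : Type} [Fintype S] [Fintype Λ] [Fintype R] [Fintype J] [Fintype ι]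
  [DecidableEq ι] [Fintype ν] [Fintype κ] {ch : Ch ι J} {W : Wt S Λ R J}
  {O : Set (ch.WF ν κ Λ)} {U : HO} {F : CF U ch.M ch.o ch.g ch.m} {p : Pres U.toSp (actF W) O}
  {pC : Pres F.US (actC W) (unv O)}

/-- the degree of `O(a)` on the fibres of the universal curve of a chart -/
theorem degQ' (hu : ∀ s : U.G × Tor ι, (pC.u s).2 = fun i => (s.2 i : ℂ))
    (hi : ∀ x : F.UT, (pC.i x).1 = p.i x.t) {β βC} (hβ : push p.e β = U.fund)
    (hC : push pC.e βC = F.UC.fund) (a : ι → ℤ) :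
    push (prC W O) (cap (oC W O a) βC) = ((∑ i, a i * ch.m i : ℤ) : ℂ) • β := by
  have := p.nice
  have := pC.nice
  have h1 : oC W O a = H.map pC.e (c1 (F.ch a)).1 :=
    hcls_char pC (F.ch a) (c := fun s => ∏ i, s.2 i ^ a i) fun s =>
      (Finset.prod_congr rfl fun i _ => (congrArg (· ^ a i) (congrFun (hu s) i)).trans
        (Units.val_zpow_eq_zpow_val _ _).symm).trans (Units.coe_prod _ _).symm
  have h2 : ∀ x, p.e (prC W O x) = F.pr.map (pC.e x) := fun x => by
    obtain ⟨x, rfl⟩ := pC.isQuotientMap_mk'.surjective x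
    rw [pC.map', Mor.map_π]
    exact (congrArg (fun y => p.e (Quo.mk _ y)) (Subtype.ext (hi x))).trans (p.map' _)
  refine push_injective p.isHomeomorph_e ?_
  rw [h1, push_sq p.isHomeomorph_e pC.isHomeomorph_e F.isPr_pr h2, hC, F.push_ch, map_smul, hβ]

end Vale.Agent.P269.Grr
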