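import Vale.Agent.P287Q.G.Qrr.Nod
import Vale.Agent.P269.Spl.Dim

/-!
# Curves without nodes are dense
-/

set_option linter.unusedSectionVars false

namespace Vale.Agent.P269.Ch

open P291Z Set Function Topology Filter Holo Base Module

variable {S Λ J ν κ ι : Type} [Fintype S] [Fintype Λ] [Fintype J] [Fintype ν] [Fintype κ]
  [Fintype ι] [DecidableEq ι] {ch : Ch ι J} {B : Set (Λ → ℂ)} {O : Set (ch.WF ν κ Λ)} {N d : ℕ}

/-- the curves with nodes form a small set -/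
theorem Num₀.dimLt_nod (h : Num₀ ch) (hV : Ver B O) (hm : ∀ x ∈ O, MfdAt O N x) :
    DimLt N (Prod.fst '' nod O) := by
  have : 0 < Fintype.card ι := Fintype.card_pos_iff.2 ⟨ch.o⟩
  have a : DimLt (N + finrank ℂ (ι → ℂ)) (nod O) :=
    (DimLt.of_mfd' fun x : nod O => (h.mfdAt_nod hV x.2 (hm _ x.2.1.1)).2).le
      (by rw [finrank_fintype_fun_eq_card]; omega)
  refine DimLt.of_prod (U := {s : ι → ℂ | ∀ i, s i ≠ 0}) ?_ ⟨1, fun _ => one_ne_zero⟩
    ((DimLt.iUnion fun k : ∀ i, Fin (ch.M i) => a.image (f := fun z => (z.1, fun i => z.2 i (k i)))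
      fun _ _ => contDiffAt_fst.prodMk (contDiffAt_pi.2 fun i =>
        contDiffAt_pi.1 (contDiffAt_pi.1 contDiffAt_snd i) (k i))).mono ?_)
  · simpa only [ofPred_forall] using isOpen_iInter_of_finite fun i =>
      isOpen_ne_fun (continuous_apply i) continuous_const
  · rintro ⟨_, s⟩ ⟨⟨⟨y, c⟩, hz, rfl⟩, hs⟩
    choose k hk using fun i => Function.ne_iff.1 (crv_ne hz.1.2 i)
    have e : ∀ i, s i / c i (k i) ≠ 0 := fun i => div_ne_zero (hs i) (hk i)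
    exact mem_iUnion.2 ⟨k, (y, (fun i => s i / c i (k i)) • c), ⟨⟨hz.1.1, crv_smul hz.1.2 e⟩,
      hz.2.smul e fun _ hc => crv_smul hc e⟩,
      Prod.ext rfl (funext fun i => div_mul_cancel₀ _ (hk i))⟩

theorem Num₀.dense_sm' (h : Num₀ ch) (hV : Ver B O) (hm : ∀ x ∈ O, MfdAt O N x) :
    O ⊆ closure {y | y ∈ O ∧ ∀ c ∈ crv y.2, ¬IsNode ch.o (crv y.2) c} :=
  ((h.dimLt_nod hV hm).dense fun x => (hm x x.2).2).trans (closure_mono fun y a =>
    ⟨a.1, fun c hc k => a.2 ⟨(y, c), ⟨⟨a.1, hc⟩, k⟩, rfl⟩⟩)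

/-- **curves without nodes are dense** -/
theorem Num₀.dense_sm (h : Num₀ ch) (hV : Ver B O) (hm : KD.Mf (ch.AF ν κ S) O d)
    {x : ch.WF ν κ Λ} (hx : x ∈ O) :
    ∃ᶠ y in 𝓝[O] x, ∀ c ∈ crv y.2, ¬IsNode ch.o (crv y.2) c :=
  frequently_nhdsWithin_iff.2
    ((mem_closure_iff_frequently.1 (h.dense_sm' hV hm hx)).mono fun _ a => a.symm)

end Vale.Agent.P269.Ch
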